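import Crest.Agent.Lib.PT.Tree

/-!
# Typed API: products, booleans, propositions, lists, folds, unary numbers
-/

set_option autoImplicit false

namespace Crest.Agent.PTime

variable {α β γ σ : Type*} [Enc α] [Enc β] [Enc γ] [Enc σ]

/-! ## `PB` -/

theorem PB.mono {f g : α → ℕ} (hg : PB g) (h : ∀ a, f a ≤ g a) : PB f := by
  obtain ⟨q, hq⟩ := hg; exact ⟨q, fun a => (h a).trans (hq a)⟩

@[fun_prop] theorem PB.const (c : ℕ) : PB (fun _ : α => c) := ⟨Polynomial.C c, fun a => by simp⟩

@[fun_prop] theorem PB.comp {f : β → ℕ} {g : α → β} (hf : PB f) (hg : PT g) :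
    PB (fun a => f (g a)) := by
  obtain ⟨q, hq⟩ := hf
  obtain ⟨s, hs⟩ := hg.pb_sz
  exact ⟨q.comp s, fun a => (hq _).trans (by simpa using eval_mono q (hs a))⟩

@[fun_prop] theorem PB.sz {f : α → β} (h : PT f) : PB (fun a => sz (f a)) := h.pb_sz

@[fun_prop] theorem PB.add {f g : α → ℕ} (hf : PB f) (hg : PB g) : PB (fun a => f a + g a) := by
  obtain ⟨q, hq⟩ := hf; obtain ⟨s, hs⟩ := hg
  exact ⟨q + s, fun a => by simpa using add_le_add (hq a) (hs a)⟩

@[fun_prop] theorem PB.mul {f g : α → ℕ} (hf : PB f) (hg : PB g) : PB (fun a => f a * g a) := by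
  obtain ⟨q, hq⟩ := hf; obtain ⟨s, hs⟩ := hg
  exact ⟨q * s, fun a => by simpa using Nat.mul_le_mul (hq a) (hs a)⟩

@[fun_prop] theorem PB.pow {f : α → ℕ} (hf : PB f) (k : ℕ) : PB (fun a => f a ^ k) := by
  obtain ⟨q, hq⟩ := hf
  exact ⟨q ^ k, fun a => by simpa using Nat.pow_le_pow_left (hq a) k⟩

@[fun_prop] theorem PB.sub {f g : α → ℕ} (hf : PB f) : PB (fun a => f a - g a) :=
  hf.mono fun _ => Nat.sub_le _ _

@[fun_prop] theorem PB.div {f g : α → ℕ} (hf : PB f) : PB (fun a => f a / g a) :=
  hf.mono fun _ => Nat.div_le_self _ _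

@[fun_prop] theorem PB.mod {f g : α → ℕ} (hf : PB f) : PB (fun a => f a % g a) :=
  hf.mono fun _ => Nat.mod_le _ _

@[fun_prop] theorem PB.min_left {f g : α → ℕ} (hf : PB f) : PB (fun a => min (f a) (g a)) :=
  hf.mono fun _ => min_le_left _ _

@[fun_prop] theorem PB.min_right {f g : α → ℕ} (hg : PB g) : PB (fun a => min (f a) (g a)) :=
  hg.mono fun _ => min_le_right _ _

@[fun_prop] theorem PB.max {f g : α → ℕ} (hf : PB f) (hg : PB g) : PB (fun a => max (f a) (g a)) :=
  (hf.add hg).mono fun _ => by omega

@[fun_prop] theorem PB.succ {f : α → ℕ} (hf : PB f) : PB (fun a => (f a).succ) :=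
  hf.add (PB.const 1)

@[fun_prop] theorem PB.pred {f : α → ℕ} (hf : PB f) : PB (fun a => (f a).pred) :=
  hf.mono fun _ => Nat.pred_le _

@[fun_prop] theorem PB.ite {p : α → Prop} [∀ a, Decidable (p a)] {f g : α → ℕ} (hf : PB f)
    (hg : PB g) : PB (fun a => if p a then f a else g a) :=
  (hf.add hg).mono fun a => by split_ifs <;> omega

@[fun_prop] theorem PB.cond {c : α → Bool} {f g : α → ℕ} (hf : PB f)
    (hg : PB g) : PB (fun a => cond (c a) (f a) (g a)) :=
  (hf.add hg).mono fun a => by cases c a <;> simp

@[fun_prop] theorem PB.length {l : α → List β} (hl : PT l) : PB (fun a => (l a).length) :=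
  hl.pb_sz.mono fun _ => length_le_sz _

@[fun_prop] theorem PB.poly_eval (q : Polynomial ℕ) {f : α → ℕ} (hf : PB f) :
    PB (fun a => q.eval (f a)) := by
  obtain ⟨s, hs⟩ := hf
  exact ⟨q.comp s, fun a => by simpa using eval_mono q (hs a)⟩

/-! ## products, booleans, propositions -/

@[fun_prop] theorem PT.fst {f : α → β × γ} (hf : PT f) : PT (fun a => (f a).1) :=
  (PT.left.comp (PT.enc.comp hf)).of_enc fun _ => rfl

@[fun_prop] theorem PT.snd {f : α → β × γ} (hf : PT f) : PT (fun a => (f a).2) :=
  (PT.right.comp (PT.enc.comp hf)).of_enc fun _ => rfl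

@[fun_prop] theorem PT.bnot {f : α → Bool} (hf : PT f) : PT (fun a => !(f a)) :=
  (hf.cond (PT.const false) (PT.const true)).congr fun a => by cases f a <;> rfl

@[fun_prop] theorem PT.band {f g : α → Bool} (hf : PT f) (hg : PT g) : PT (fun a => f a && g a) :=
  (hf.cond hg (PT.const false)).congr fun a => by cases f a <;> rfl

@[fun_prop] theorem PT.bor {f g : α → Bool} (hf : PT f) (hg : PT g) : PT (fun a => f a || g a) :=
  (hf.cond (PT.const true) hg).congr fun a => by cases f a <;> rfl

@[fun_prop] theorem PT.bxor {f g : α → Bool} (hf : PT f) (hg : PT g) :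
    PT (fun a => xor (f a) (g a)) :=
  (hf.cond hg.bnot hg).congr fun a => by cases f a <;> simp

/-- propositions are encoded by their truth value -/
noncomputable instance : Enc Prop := ⟨fun p => enc (@decide p (Classical.propDecidable p))⟩

theorem enc_prop (p : Prop) [Decidable p] : enc p = enc (decide p) := by
  show enc (@decide p (Classical.propDecidable p)) = _
  congr

@[fun_prop] theorem PT.decide {p : α → Prop} [∀ a, Decidable (p a)] (hp : PT p) :
    PT (fun a => decide (p a)) := hp.of_enc fun _ => (enc_prop _).symm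

theorem PT.of_decide {p : α → Prop} {f : α → Bool} (hf : PT f) (h : ∀ a, p a ↔ f a = true) :
    PT p := hf.of_enc fun a => by
  classical
  rw [enc_prop]; congr 1
  by_cases hp : p a
  · simp [hp, (h a).1 hp]
  · have : f a = false := by simpa using fun h' => hp ((h a).2 h')
    simp [hp, this]

theorem PT.congr_prop {p q : α → Prop} (hq : PT q) (h : ∀ a, p a ↔ q a) : PT p :=
  hq.congr fun a => propext (h a)

@[fun_prop] theorem PT.ite {p : α → Prop} [∀ a, Decidable (p a)] {f g : α → β} (hp : PT p)
    (hf : PT f) (hg : PT g) : PT (fun a => if p a then f a else g a) :=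
  (hp.decide.cond hf hg).congr fun a => by by_cases h : p a <;> simp [h]

@[fun_prop] theorem PT.not {p : α → Prop} (hp : PT p) : PT (fun a => ¬ p a) := by
  classical exact hp.decide.bnot.of_decide fun a => by simp

@[fun_prop] theorem PT.and {p q : α → Prop} (hp : PT p) (hq : PT q) : PT (fun a => p a ∧ q a) := by
  classical exact (hp.decide.band hq.decide).of_decide fun a => by simp

@[fun_prop] theorem PT.or {p q : α → Prop} (hp : PT p) (hq : PT q) : PT (fun a => p a ∨ q a) := by
  classical exact (hp.decide.bor hq.decide).of_decide fun a => by simp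

theorem PT.imp {p q : α → Prop} (hp : PT p) (hq : PT q) : PT (fun a => p a → q a) :=
  (hp.not.or hq).congr_prop fun a => by tauto

@[fun_prop] theorem PT.iff {p q : α → Prop} (hp : PT p) (hq : PT q) : PT (fun a => p a ↔ q a) :=
  ((hp.and hq).or (hp.not.and hq.not)).congr_prop fun a => by tauto

/-! ## lists: primitives -/

@[fun_prop] theorem PT.cons {f : α → β} {l : α → List β} (hf : PT f) (hl : PT l) :
    PT (fun a => f a :: l a) := (hf.pair hl).of_enc fun _ => rfl

@[fun_prop] theorem PT.tail {l : α → List β} (hl : PT l) : PT (fun a => (l a).tail) :=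
  (PT.right.comp (PT.enc.comp hl)).of_enc fun a => by cases l a <;> rfl

@[fun_prop] theorem PT.isEmpty {l : α → List β} (hl : PT l) : PT (fun a => (l a).isEmpty) :=
  (PT.isNode.comp (PT.enc.comp hl)).bnot.congr fun a => by cases l a <;> rfl

@[fun_prop] theorem PT.headD {l : α → List β} {d : α → β} (hl : PT l) (hd : PT d) :
    PT (fun a => (l a).headD (d a)) :=
  (hl.isEmpty.cond (PT.enc.comp hd) (PT.left.comp (PT.enc.comp hl))).of_enc fun a => by
    cases l a <;> rfl

/-- case distinction on a list -/
theorem PT.list_cases {l : α → List β} {f : α → γ} {g : α → β → List β → γ} (hl : PT l)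
    (hf : PT f) (hg : PT (fun p : α × β × List β => g p.1 p.2.1 p.2.2)) :
    PT (fun a => (List.casesOn (l a) (f a) (g a) : γ)) := by
  obtain ⟨p, q, hp⟩ := hg
  obtain ⟨pl, ql, hpl⟩ := (PT.id (α := α)).pair hl
  obtain ⟨s, hs⟩ := ((PT.id (α := α)).pair hl).pb_sz
  obtain ⟨pe, qe, hpe⟩ := hl.isEmpty
  obtain ⟨pf, qf, hpf⟩ := hf
  refine ⟨.seq pDup (.seq pe (.case .s .skip (.seq pl p) (.seq (pop1 .s) (.seq (pop1 .s) pf)))),
    12 * Polynomial.X + 5 + qe + ql + q.comp s + qf + 5, fun a r => ?_⟩
  have h1 := hpe a ((Enc.enc a).bits ++ r)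
  have h2 := hpl a r
  have h3 := hs a
  dsimp only at h1 h2 h3 ⊢
  cases h : l a with
  | nil =>
    rw [h] at h1
    refine EvLe.mono ((ev_dup (Enc.enc a) r).seq (h1.seq (EvLe.caseT
      (r := false :: false :: ((Enc.enc a).bits ++ r)) rfl
      ((ev_pop1 _ _ _ _ _).seq ((ev_pop1 _ _ _ _ _).seq (hpf a r)))))) ?_
    simp [sz]; omega
  | cons b t =>
    rw [h] at h1 h2 h3
    refine EvLe.mono ((ev_dup (Enc.enc a) r).seq (h1.seq (EvLe.caseF (r := (Enc.enc a).bits ++ r)
      rfl (h2.seq (hp (a, b, t) r))))) ?_
    have h4 : q.eval (sz (a, b, t)) ≤ q.eval (s.eval (sz a)) := eval_mono q h3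
    simp [sz] at h4 ⊢; omega

theorem sz_mem {l : List α} {a : α} (h : a ∈ l) : sz a < sz l := by
  induction l with
  | nil => simp at h
  | cons b l ih =>
    rcases List.mem_cons.1 h with rfl | h
    · simp
    · have := ih h; simp; omega

theorem sz_append (l m : List α) : sz (l ++ m) + 1 = sz l + sz m := by
  induction l with
  | nil => simp; omega
  | cons b l ih => simp; omega

theorem sz_reverse (l : List α) : sz l.reverse = sz l := by
  induction l with
  | nil => simp
  | cons b l ih => have := sz_append l.reverse [b]; simp at this ⊢; omega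

theorem sz_sublist {l m : List α} (h : l.Sublist m) : sz l ≤ sz m := by
  induction h with
  | slnil => simp
  | cons a _ ih => simp; omega
  | cons_cons a _ ih => simp; omega

theorem sz_list_le {l : List α} {B : ℕ} (h : ∀ a ∈ l, sz a ≤ B) : sz l ≤ l.length * (B + 1) + 1 := by
  induction l with
  | nil => simp
  | cons b l ih =>
    have h1 := ih fun a ha => h a (List.mem_cons_of_mem _ ha)
    have h2 := h b List.mem_cons_self
    simp [add_mul]; omega

/-- one step of a fold -/
def foldStep (f : α → σ → β → σ) (x : α × σ × List β) : α × σ × List β :=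
  List.casesOn x.2.2 x (fun b t => (x.1, f x.1 x.2.1 b, t))

omit [Enc α] [Enc β] [Enc σ] in
theorem foldStep_iter (f : α → σ → β → σ) (a : α) (i : ℕ) : ∀ (s : σ) (l : List β),
    (foldStep f)^[i] (a, s, l) = (a, (l.take i).foldl (f a) s, l.drop i) := by
  induction i with
  | zero => intro s l; simp
  | succ i ih =>
    intro s l
    cases l with
    | nil =>
      rw [Function.iterate_succ_apply]
      exact (ih s []).trans (by simp)
    | cons b t =>
      rw [Function.iterate_succ_apply]
      exact (ih (f a s b) t).trans (by simp)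

/-- Folds, given a polynomial bound for the sizes of all intermediate values. -/
theorem PT.foldl {f : α → σ → β → σ} {init : α → σ} {l : α → List β}
    (hf : PT (fun p : α × σ × β => f p.1 p.2.1 p.2.2)) (hi : PT init) (hl : PT l)
    {B : α → ℕ} (hB : PB B) (hb : ∀ a i, sz (((l a).take i).foldl (f a) (init a)) ≤ B a) :
    PT (fun a => (l a).foldl (f a) (init a)) := by
  have h1 : PT (foldStep f) := by
    unfold foldStep
    refine PT.list_cases (by fun_prop) PT.id ?_
    have := hf.comp (g := fun p : (α × σ × List β) × β × List β => (p.1.1, p.1.2.1, p.2.1))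
      (by fun_prop)
    exact PT.pair (by fun_prop) (PT.pair this (by fun_prop))
  have h2 := PT.while_loop (f := foldStep f) (c := fun x => !x.2.2.isEmpty)
    (init := fun a => (a, init a, l a)) (N := fun a => (l a).length) h1 (by fun_prop) (by fun_prop)
    (by fun_prop) (fun a i hi => by rw [foldStep_iter]; simp; omega)
    (fun a => by rw [foldStep_iter]; simp) ?_
  · exact h2.snd.fst.congr fun a => by rw [foldStep_iter]; simp
  · have h3 : PB (fun a => sz a + B a + sz (l a) + 2) :=
      (((PT.id.pb_sz).add hB).add hl.pb_sz).add (PB.const 2)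
    obtain ⟨q, hq⟩ := h3
    refine ⟨q, fun a i _ => le_trans ?_ (hq a)⟩
    rw [foldStep_iter]
    have h4 := hb a i
    have h5 := sz_sublist (List.drop_sublist i (l a))
    simp; omega

/-- Folds whose state grows additively by a polynomially bounded amount. -/
theorem PT.foldl_add {f : α → σ → β → σ} {init : α → σ} {l : α → List β}
    (hf : PT (fun p : α × σ × β => f p.1 p.2.1 p.2.2)) (hi : PT init) (hl : PT l)
    {g : α × β → ℕ} (hg : PB g) (hb : ∀ a s b, b ∈ l a → sz (f a s b) ≤ sz s + g (a, b)) :
    PT (fun a => (l a).foldl (f a) (init a)) := by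
  obtain ⟨q, hq⟩ := hg
  refine PT.foldl hf hi hl
    (B := fun a => sz (init a) + (l a).length * q.eval (sz a + sz (l a) + 1)) (by fun_prop) ?_
  intro a i
  have key : ∀ (m : List β) (s : σ), (∀ b ∈ m, b ∈ l a) →
      sz (m.foldl (f a) s) ≤ sz s + m.length * q.eval (sz a + sz (l a) + 1) := by
    intro m
    induction m with
    | nil => intro s _; simp
    | cons b m ih =>
      intro s hm
      have h1 := ih (f a s b) fun c hc => hm c (List.mem_cons_of_mem _ hc)
      have h2 := hb a s b (hm b List.mem_cons_self)
      have h3 := hq (a, b)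
      have h4 := sz_mem (hm b List.mem_cons_self)
      have h5 : q.eval (sz (a, b)) ≤ q.eval (sz a + sz (l a) + 1) := eval_mono q (by simp; omega)
      simp [add_mul]; omega
  refine (key _ _ fun b hb => List.mem_of_mem_take hb).trans ?_
  have : ((l a).take i).length ≤ (l a).length := by simp
  have := Nat.mul_le_mul_right (q.eval (sz a + sz (l a) + 1)) this
  omega

/-- Folds whose state has bounded size as soon as one step was made. -/
theorem PT.foldl_bdd {f : α → σ → β → σ} {init : α → σ} {l : α → List β}
    (hf : PT (fun p : α × σ × β => f p.1 p.2.1 p.2.2)) (hi : PT init) (hl : PT l)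
    {B : α → ℕ} (hB : PB B) (Inv : α → σ → Prop) (h0 : ∀ a, Inv a (init a))
    (h1 : ∀ a s b, b ∈ l a → Inv a s → Inv a (f a s b)) (h2 : ∀ a s, Inv a s → sz s ≤ B a) :
    PT (fun a => (l a).foldl (f a) (init a)) := by
  refine PT.foldl hf hi hl hB fun a i => h2 a _ ?_
  have key : ∀ (m : List β) (s : σ), (∀ b ∈ m, b ∈ l a) → Inv a s → Inv a (m.foldl (f a) s) := by
    intro m
    induction m with
    | nil => intro s _ h; exact h
    | cons b m ih =>
      intro s hm h
      exact ih _ (fun c hc => hm c (List.mem_cons_of_mem _ hc)) (h1 a s b (hm b List.mem_cons_self) h)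
  exact key _ _ (fun b hb => List.mem_of_mem_take hb) (h0 a)

theorem PT.reverseAux {l m : α → List β} (hl : PT l) (hm : PT m) :
    PT (fun a => (l a).reverse ++ m a) := by
  have := PT.foldl_add (f := fun (_ : α) (s : List β) (b : β) => b :: s) (init := m) (l := l)
    (by fun_prop) hm hl (g := fun p => sz p.2 + 1) (by fun_prop) (fun a s b _ => by simp; omega)
  refine this.congr fun a => ?_
  generalize m a = s
  induction l a generalizing s with
  | nil => simp
  | cons b t ih => simp [← ih]

@[fun_prop] theorem PT.reverse {l : α → List β} (hl : PT l) : PT (fun a => (l a).reverse) :=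
  (hl.reverseAux (PT.const [])).congr fun a => by simp

@[fun_prop] theorem PT.append {l m : α → List β} (hl : PT l) (hm : PT m) :
    PT (fun a => l a ++ m a) :=
  (hl.reverse.reverseAux hm).congr fun a => by simp

@[fun_prop] theorem PT.flatMap {f : α → β → List γ} {l : α → List β}
    (hf : PT (fun p : α × β => f p.1 p.2)) (hl : PT l) : PT (fun a => (l a).flatMap (f a)) := by
  have h1 : PT (fun p : α × List γ × β => f p.1 p.2.2) :=
    hf.comp (g := fun p : α × List γ × β => (p.1, p.2.2)) (by fun_prop)
  have := PT.foldl_add (f := fun (a : α) (s : List γ) (b : β) => s ++ f a b)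
    (init := fun _ => []) (l := l) (PT.append (by fun_prop) h1) (PT.const _) hl
    (g := fun p => sz (f p.1 p.2)) hf.pb_sz (fun a s b _ => by have := sz_append s (f a b); simp; omega)
  refine this.congr fun a => ?_
  have key : ∀ (m : List β) (s : List γ), m.foldl (fun s b => s ++ f a b) s = s ++ m.flatMap (f a) := by
    intro m
    induction m with
    | nil => simp
    | cons b t ih => intro s; simp [ih]
  simp [key]

@[fun_prop] theorem PT.map {f : α → β → γ} {l : α → List β}
    (hf : PT (fun p : α × β => f p.1 p.2)) (hl : PT l) : PT (fun a => (l a).map (f a)) :=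
  (PT.flatMap (f := fun a b => [f a b]) (hf.cons (PT.const [])) hl).congr fun a => by
    induction l a with
    | nil => rfl
    | cons b t ih => simp [ih]

@[fun_prop] theorem PT.flatten {l : α → List (List β)} (hl : PT l) : PT (fun a => (l a).flatten) :=
  (PT.flatMap (f := fun _ b => b) (by fun_prop) hl).congr fun a => by simp

@[fun_prop] theorem PT.filter {f : α → β → Bool} {l : α → List β}
    (hf : PT (fun p : α × β => f p.1 p.2)) (hl : PT l) : PT (fun a => (l a).filter (f a)) :=
  (PT.flatMap (f := fun a b => _root_.cond (f a b) [b] []) (hf.cond (by fun_prop) (PT.const [])) hl).congr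
    fun a => by
    induction l a with
    | nil => rfl
    | cons b t ih => cases h : f a b <;> simp [ih, h]

@[fun_prop] theorem PT.any {f : α → β → Bool} {l : α → List β}
    (hf : PT (fun p : α × β => f p.1 p.2)) (hl : PT l) : PT (fun a => (l a).any (f a)) :=
  (PT.filter hf hl).isEmpty.bnot.congr fun a => by
    induction l a with
    | nil => rfl
    | cons b t ih => cases h : f a b <;> simp [ih, h]

@[fun_prop] theorem PT.all {f : α → β → Bool} {l : α → List β}
    (hf : PT (fun p : α × β => f p.1 p.2)) (hl : PT l) : PT (fun a => (l a).all (f a)) :=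
  (PT.any (f := fun a b => !f a b) hf.bnot hl).bnot.congr fun a => by
    induction l a with
    | nil => rfl
    | cons b t ih => cases h : f a b <;> simp [ih, h]

theorem PT.exists_mem {p : α → β → Prop} {l : α → List β}
    (hf : PT (fun x : α × β => p x.1 x.2)) (hl : PT l) : PT (fun a => ∃ b ∈ l a, p a b) := by
  classical
  exact (PT.any (f := fun a b => Decidable.decide (p a b)) hf.decide hl).of_decide fun a => by simp

theorem PT.forall_mem {p : α → β → Prop} {l : α → List β}
    (hf : PT (fun x : α × β => p x.1 x.2)) (hl : PT l) : PT (fun a => ∀ b ∈ l a, p a b) := by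
  classical
  exact (PT.all (f := fun a b => Decidable.decide (p a b)) hf.decide hl).of_decide fun a => by simp

/-! ## options -/

instance : Enc (Option α) := ⟨fun o => enc o.toList⟩

@[fun_prop] theorem PT.toList {o : α → Option β} (h : PT o) : PT (fun a => (o a).toList) :=
  h.of_enc fun _ => rfl

@[fun_prop] theorem PT.some {f : α → β} (h : PT f) : PT (fun a => some (f a)) :=
  (h.cons (PT.const [])).of_enc fun _ => rfl

@[fun_prop] theorem PT.head? {l : α → List β} (hl : PT l) : PT (fun a => (l a).head?) :=
  (PT.list_cases (f := fun _ => none) (g := fun _ b _ => Option.some b) hl (PT.const _)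
    (by fun_prop)).congr fun a => by cases l a <;> rfl

@[fun_prop] theorem PT.getD_option {o : α → Option β} {d : α → β} (h : PT o) (hd : PT d) :
    PT (fun a => (o a).getD (d a)) :=
  (h.toList.headD hd).congr fun a => by cases o a <;> rfl

@[fun_prop] theorem PT.isSome {o : α → Option β} (h : PT o) : PT (fun a => (o a).isSome) :=
  h.toList.isEmpty.bnot.congr fun a => by cases o a <;> rfl

@[fun_prop] theorem PT.isNone {o : α → Option β} (h : PT o) : PT (fun a => (o a).isNone) :=
  h.toList.isEmpty.congr fun a => by cases o a <;> rfl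

@[fun_prop] theorem PT.option_map {f : α → β → γ} {o : α → Option β}
    (hf : PT (fun p : α × β => f p.1 p.2)) (h : PT o) : PT (fun a => (o a).map (f a)) :=
  (PT.map hf h.toList).of_enc fun a => by cases o a <;> rfl

@[fun_prop] theorem PT.option_bind {f : α → β → Option γ} {o : α → Option β}
    (hf : PT (fun p : α × β => f p.1 p.2)) (h : PT o) : PT (fun a => (o a).bind (f a)) :=
  (PT.flatMap (f := fun a b => (f a b).toList) hf.toList h.toList).of_enc fun a => by
    cases o a with
    | none => rfl
    | some b => show Enc.enc (f a b).toList = _; simp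

@[fun_prop] theorem PT.option_elim {f : α → β → γ} {o : α → Option β} {d : α → γ}
    (h : PT o) (hd : PT d) (hf : PT (fun p : α × β => f p.1 p.2)) :
    PT (fun a => (o a).elim (d a) (f a)) :=
  ((PT.option_map hf h).getD_option hd).congr fun a => by cases o a <;> rfl

@[fun_prop] theorem PT.filterMap {f : α → β → Option γ} {l : α → List β}
    (hf : PT (fun p : α × β => f p.1 p.2)) (hl : PT l) : PT (fun a => (l a).filterMap (f a)) :=
  (PT.flatMap (f := fun a b => (f a b).toList) hf.toList hl).congr fun a => by
    induction l a with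
    | nil => rfl
    | cons b t ih => cases h : f a b <;> simp [ih, h]

@[fun_prop] theorem PT.find? {f : α → β → Bool} {l : α → List β}
    (hf : PT (fun p : α × β => f p.1 p.2)) (hl : PT l) : PT (fun a => (l a).find? (f a)) :=
  (PT.filter hf hl).head?.congr fun a => by simp

/-! ## unary numbers and iteration -/

/-- natural numbers in unary -/
@[ext] structure U where
  val : ℕ

instance : Enc U := ⟨fun u => enc (List.replicate u.val ())⟩

theorem sz_U (u : U) : sz u = 2 * u.val + 1 := by
  show sz (List.replicate u.val ()) = _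
  induction u.val with
  | zero => simp
  | succ n ih => simp [List.replicate_succ, ih]; omega

@[fun_prop] theorem PB.val {u : α → U} (h : PT u) : PB (fun a => (u a).val) :=
  h.pb_sz.mono fun a => by rw [sz_U]; omega

theorem PT.units {u : α → U} (h : PT u) : PT (fun a => List.replicate (u a).val ()) :=
  h.of_enc fun _ => rfl

theorem PT.ulength {l : α → List β} (hl : PT l) : PT (fun a => (⟨(l a).length⟩ : U)) :=
  (PT.map (f := fun _ _ => ()) (PT.const _) hl).of_enc fun a => by
    show Enc.enc (List.replicate (l a).length ()) = _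
    simp

theorem PT.usucc {u : α → U} (h : PT u) : PT (fun a => (⟨(u a).val + 1⟩ : U)) :=
  ((PT.const ()).cons h.units).of_enc fun _ => rfl

theorem PT.uadd {u v : α → U} (hu : PT u) (hv : PT v) :
    PT (fun a => (⟨(u a).val + (v a).val⟩ : U)) :=
  (hu.units.append hv.units).ulength.congr fun a => by simp

theorem PT.replicateU {u : α → U} {f : α → β} (h : PT u) (hf : PT f) :
    PT (fun a => List.replicate (u a).val (f a)) :=
  (PT.map (f := fun a _ => f a) (hf.comp (g := fun p : α × Unit => p.1) (by fun_prop)) h.units).congr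
    fun a => by simp

omit [Enc σ] in
theorem foldl_replicate (f : σ → σ) (n : ℕ) (s : σ) :
    (List.replicate n ()).foldl (fun s _ => f s) s = f^[n] s := by
  induction n generalizing s with
  | zero => rfl
  | succ n ih => simp [List.replicate_succ, ih]

/-- Iteration a unary number of times. -/
theorem PT.iterateU {f : α → σ → σ} {init : α → σ} {u : α → U}
    (hf : PT (fun p : α × σ => f p.1 p.2)) (hi : PT init) (hu : PT u)
    {B : α → ℕ} (hB : PB B) (hb : ∀ a i, i ≤ (u a).val → sz ((f a)^[i] (init a)) ≤ B a) :
    PT (fun a => (f a)^[(u a).val] (init a)) := by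
  have := PT.foldl (f := fun (a : α) (s : σ) (_ : Unit) => f a s) (init := init)
    (hf.comp (g := fun p : α × σ × Unit => (p.1, p.2.1)) (by fun_prop)) hi hu.units hB
    (fun a i => by
      rw [List.take_replicate, foldl_replicate]; exact hb a _ (min_le_right _ _))
  exact this.congr fun a => (foldl_replicate _ _ _).symm

/-- the list `[0, …, n-1]` of unary numbers -/
theorem PT.rangeU {u : α → U} (hu : PT u) : PT (fun a => (List.range (u a).val).map U.mk) := by
  have key : ∀ n, (fun s : List U => s ++ [⟨s.length⟩])^[n] [] = (List.range n).map U.mk := by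
    intro n
    induction n with
    | zero => rfl
    | succ n ih => rw [Function.iterate_succ_apply', ih, List.range_succ]; simp
  have := PT.iterateU (f := fun (_ : α) (s : List U) => s ++ [⟨s.length⟩]) (init := fun _ => [])
    (PT.append (by fun_prop) (PT.cons (PT.ulength (by fun_prop)) (PT.const _))) (PT.const _) hu
    (B := fun a => (u a).val * (2 * (u a).val + 2) + 1) (by fun_prop) (fun a i hi => by
      rw [key]
      refine (sz_list_le (B := 2 * (u a).val + 1) ?_).trans ?_
      · intro x hx
        obtain ⟨j, hj, rfl⟩ := List.mem_map.1 hx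
        have := List.mem_range.1 hj
        rw [sz_U]; simp; omega
      · simp; gcongr)
  exact this.congr fun a => (key _).symm

end Crest.Agent.PTime
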