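import Crest.Agent.Lib.PT.Rat
import Crest.Prelude.Def_BitEnc

/-!
# The bit-string codes of the Prelude, parsers, and the bridges to the Prelude's complexity notions
-/

set_option autoImplicit false
open Crest.Enc Crest.Complexity

namespace Crest.Agent.PTime

variable {α β γ σ : Type*} [Enc α] [Enc β] [Enc γ] [Enc σ]

@[fun_prop] theorem PT.natCode {f : α → ℕ} (h : PT f) : PT (fun a => natCode (f a)) := by
  unfold Crest.Enc.natCode; fun_prop

@[fun_prop] theorem PT.intCode {f : α → ℤ} (h : PT f) : PT (fun a => intCode (f a)) := by
  unfold Crest.Enc.intCode; fun_prop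

@[fun_prop] theorem PT.ratCode {f : α → ℚ} (h : PT f) : PT (fun a => ratCode (f a)) := by
  unfold Crest.Enc.ratCode; fun_prop

@[fun_prop] theorem PT.listCode {f : α → List ℕ} (h : PT f) : PT (fun a => listCode (f a)) := by
  unfold Crest.Enc.listCode; fun_prop

/-! ## parsers: `List Bool → value × rest` -/

def pnStep (s : List Bool × List Bool) : List Bool × List Bool :=
  cond (s.1.headD false) (s.1.tail.tail, s.2 ++ [s.1.tail.headD false]) s

/-- parser for `natCode` -/
def parseNat (w : List Bool) : ℕ × List Bool :=
  (ofBits (pnStep^[w.length] (w, [])).2, (pnStep^[w.length] (w, [])).1.tail.tail)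

theorem pnStep_len (i : ℕ) (s : List Bool × List Bool) :
    (pnStep^[i] s).1.length ≤ s.1.length ∧ (pnStep^[i] s).2.length ≤ s.2.length + i := by
  induction i with
  | zero => simp
  | succ i ih =>
    rw [Function.iterate_succ_apply']
    generalize pnStep^[i] s = t at *
    unfold pnStep
    cases t.1.headD false <;> simp <;> omega

theorem pnStep_code (l r : List Bool) : ∀ (acc : List Bool) (k : ℕ), l.length ≤ k →
    pnStep^[k] ((l.map fun b => [true, b]).flatten ++ false :: r, acc) = (false :: r, acc ++ l) := by
  induction l with
  | nil =>
    intro acc k _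
    simpa using Function.iterate_fixed (f := pnStep) (x := (false :: r, acc)) rfl k
  | cons b l ih =>
    intro acc k hk
    obtain ⟨k, rfl⟩ : ∃ j, k = j + 1 := ⟨k - 1, by simp at hk; omega⟩
    rw [Function.iterate_succ_apply]
    exact (ih (acc ++ [b]) k (by simpa using hk)).trans (by simp)

theorem parseNat_natCode (n : ℕ) (r : List Bool) : parseNat (natCode n ++ r) = (n, r) := by
  have h : natCode n ++ r = (n.bits.map fun b => [true, b]).flatten ++ false :: false :: r := by
    simp [Crest.Enc.natCode]
  have h2 : n.bits.length ≤ (natCode n ++ r).length := by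
    rw [h]
    induction n.bits with
    | nil => simp
    | cons b l ih => simp at ih ⊢; omega
  unfold parseNat
  generalize (natCode n ++ r).length = k at h2
  rw [h, pnStep_code _ _ _ _ h2]
  simp [ofBits_bits]

theorem parseNat_len (w : List Bool) : (parseNat w).2.length ≤ w.length := by
  have := (pnStep_len w.length (w, [])).1
  simp [parseNat] at this ⊢; omega

@[fun_prop] theorem PT.parseNat {w : α → List Bool} (h : PT w) : PT (fun a => parseNat (w a)) := by
  have := PT.iterate (f := fun (_ : α) s => pnStep s) (init := fun a => (w a, []))
    (n := fun a => (w a).length) (by unfold pnStep; fun_prop) (by fun_prop) (by fun_prop)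
    (by fun_prop) (B := fun a => 8 * (w a).length + 3) (by fun_prop) (fun a i hi => by
      obtain ⟨h1, h2⟩ := pnStep_len i (w a, [])
      show PTime.sz (pnStep^[i] _) ≤ _
      have h3 := sz_bits_le (pnStep^[i] (w a, [])).1
      have h4 := sz_bits_le (pnStep^[i] (w a, [])).2
      rw [sz_prod]
      simp at h1 h2; omega)
  exact this.snd.ofBits.pair this.fst.tail.tail

attribute [irreducible] parseNat

/-- parser for `intCode` -/
def parseInt (w : List Bool) : ℤ × List Bool :=
  (cond (w.headD false) (-((parseNat w.tail).1 : ℤ)) (parseNat w.tail).1, (parseNat w.tail).2)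

theorem parseInt_intCode (z : ℤ) (r : List Bool) : parseInt (intCode z ++ r) = (z, r) := by
  simp only [parseInt, Crest.Enc.intCode, List.cons_append, List.tail_cons, parseNat_natCode,
    List.headD_cons]
  by_cases h : z < 0
  · simp [h, abs_of_neg]
  · simp [h, abs_of_nonneg (not_lt.1 h)]

theorem parseInt_len (w : List Bool) : (parseInt w).2.length ≤ w.length :=
  (parseNat_len _).trans (by simp)

@[fun_prop] theorem PT.parseInt {w : α → List Bool} (h : PT w) : PT (fun a => parseInt (w a)) := by
  unfold PTime.parseInt; fun_prop

attribute [irreducible] parseInt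

/-- parser for `ratCode` -/
def parseRat (w : List Bool) : ℚ × List Bool :=
  (mkRat (parseInt w).1 (parseNat (parseInt w).2).1, (parseNat (parseInt w).2).2)

theorem parseRat_ratCode (q : ℚ) (r : List Bool) : parseRat (ratCode q ++ r) = (q, r) := by
  have : ratCode q ++ r = intCode q.num ++ (natCode q.den ++ r) := by
    simp [Crest.Enc.ratCode, Crest.Enc.intCode]
  simp only [parseRat, this, parseInt_intCode, parseNat_natCode, Rat.mkRat_self]

theorem parseRat_len (w : List Bool) : (parseRat w).2.length ≤ w.length :=
  (parseNat_len _).trans (parseInt_len _)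

@[fun_prop] theorem PT.parseRat {w : α → List Bool} (h : PT w) : PT (fun a => parseRat (w a)) := by
  unfold PTime.parseRat; fun_prop

attribute [irreducible] parseRat

/-- parser for one bit -/
def parseBit (w : List Bool) : Bool × List Bool := (w.headD false, w.tail)

@[fun_prop] theorem PT.parseBit {w : α → List Bool} (h : PT w) : PT (fun a => parseBit (w a)) := by
  unfold PTime.parseBit; fun_prop

theorem parseBit_cons (b : Bool) (r : List Bool) : parseBit ([b] ++ r) = (b, r) := rfl

theorem parseBit_len (w : List Bool) : (parseBit w).2.length ≤ w.length := by simp [parseBit]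

attribute [irreducible] parseBit

/-- parser for a unary number `1^n 0` -/
def parseUnary (w : List Bool) : ℕ × List Bool :=
  ((w.takeWhile fun b => b).length, (w.dropWhile fun b => b).tail)

theorem parseUnary_cons (n : ℕ) (r : List Bool) :
    parseUnary (List.replicate n true ++ false :: r) = (n, r) := by
  induction n with
  | zero => simp [parseUnary]
  | succ n ih => simp [parseUnary, List.replicate_succ] at ih ⊢

theorem parseUnary_nil (n : ℕ) : parseUnary (List.replicate n true) = (n, []) := by
  simp [parseUnary]

theorem parseUnary_len (w : List Bool) : (parseUnary w).2.length ≤ w.length := by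
  have := (List.dropWhile_sublist (l := w) fun b => b).length_le
  simp [parseUnary]; omega

@[fun_prop] theorem PT.parseUnary {w : α → List Bool} (h : PT w) :
    PT (fun a => parseUnary (w a)) := by
  unfold PTime.parseUnary; fun_prop

@[fun_prop] theorem PB.parseUnary {w : α → List Bool} (h : PT w) :
    PB (fun a => (parseUnary (w a)).1) := by
  unfold PTime.parseUnary; fun_prop

attribute [irreducible] parseUnary

/-- run a parser `n` times -/
def parseRep (p : List Bool → β × List Bool) (n : ℕ) (w : List Bool) : List β × List Bool :=
  (fun s : List β × List Bool => (s.1 ++ [(p s.2).1], (p s.2).2))^[n] ([], w)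

omit [Enc β] in
theorem parseRep_code (p : List Bool → β × List Bool) (code : β → List Bool) (l : List β)
    (h : ∀ x ∈ l, ∀ r, p (code x ++ r) = (x, r)) (r : List Bool) :
    parseRep p l.length ((l.map code).flatten ++ r) = (l, r) := by
  have key : ∀ (l : List β), (∀ x ∈ l, ∀ r, p (code x ++ r) = (x, r)) → ∀ acc : List β,
      (fun s : List β × List Bool => (s.1 ++ [(p s.2).1], (p s.2).2))^[l.length]
        (acc, (l.map code).flatten ++ r) = (acc ++ l, r) := by
    intro l
    induction l with
    | nil => intro _ acc; simp
    | cons x l ih =>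
      intro h acc
      rw [List.length_cons, Function.iterate_succ_apply]
      simp only [List.map_cons, List.flatten_cons, List.append_assoc, h x List.mem_cons_self]
      rw [ih (fun y hy => h y (List.mem_cons_of_mem _ hy))]; simp
  exact (key l h []).trans (by simp)

omit [Enc β] in
theorem parseRep_len (p : List Bool → β × List Bool) (hp : ∀ w, (p w).2.length ≤ w.length) (n : ℕ)
    (w : List Bool) : (parseRep p n w).2.length ≤ w.length := by
  unfold parseRep
  induction n with
  | zero => simp
  | succ n ih => rw [Function.iterate_succ_apply']; exact (hp _).trans ih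

omit [Enc β] in
theorem parseRep_length (p : List Bool → β × List Bool) (n : ℕ)
    (w : List Bool) : (parseRep p n w).1.length = n := by
  unfold parseRep
  induction n with
  | zero => simp
  | succ n ih => rw [Function.iterate_succ_apply']; simp [ih]

theorem PT.parseRep {p : α → List Bool → β × List Bool} {n : α → ℕ} {w : α → List Bool}
    (hp : PT (fun x : α × List Bool => p x.1 x.2)) (hlen : ∀ a w, (p a w).2.length ≤ w.length)
    (hn : PT n) (hb : PB n) (hw : PT w) : PT (fun a => parseRep (p a) (n a) (w a)) := by
  obtain ⟨q, hq⟩ := hp.fst.pb_sz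
  have h1 : PT (fun x : α × List β × List Bool => p x.1 x.2.2) :=
    hp.comp (g := fun x : α × List β × List Bool => (x.1, x.2.2)) (by fun_prop)
  refine PT.iterate (f := fun a (s : List β × List Bool) => (s.1 ++ [(p a s.2).1], (p a s.2).2))
    (by fun_prop) (by fun_prop) hn hb
    (B := fun a => n a * (q.eval (PTime.sz a + 4 * (w a).length + 2) + 1) + 4 * (w a).length + 3)
    (by fun_prop) (fun a i hi => ?_)
  have key : ∀ i, PTime.sz (PTime.parseRep (p a) i (w a)).1 ≤
      i * (q.eval (PTime.sz a + 4 * (w a).length + 2) + 1) + 1 := by
    intro i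
    induction i with
    | zero => simp [PTime.parseRep]
    | succ i ih =>
      have h2 := parseRep_len (p a) (hlen a) i (w a)
      unfold PTime.parseRep at *
      rw [Function.iterate_succ_apply']
      generalize (fun s : List β × List Bool => (s.1 ++ [(p a s.2).1], (p a s.2).2))^[i] ([], w a) = s
        at *
      have h3 := sz_append s.1 [(p a s.2).1]
      have h4 := hq (a, s.2)
      have h5 := sz_bits_le s.2
      have h6 : q.eval (PTime.sz (a, s.2)) ≤ q.eval (PTime.sz a + 4 * (w a).length + 2) :=
        eval_mono q (by simp; omega)
      simp [add_mul] at h3 h4 h6 ⊢; omega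
  have h2 := parseRep_len (p a) (hlen a) i (w a)
  have h3 := sz_bits_le (PTime.parseRep (p a) i (w a)).2
  have h4 := key i
  have h5 := Nat.mul_le_mul_right (q.eval (PTime.sz a + 4 * (w a).length + 2) + 1) hi
  show PTime.sz (PTime.parseRep (p a) i (w a)) ≤ _
  rw [sz_prod]; omega

/-- parser for `listCode` -/
def parseList (w : List Bool) : List ℕ × List Bool :=
  parseRep parseNat (min w.length (parseNat w).1) (parseNat w).2

omit [Enc β] in
theorem length_le_flatten (code : β → List Bool) (l : List β) (h : ∀ x, 0 < (code x).length) :
    l.length ≤ (l.map code).flatten.length := by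
  induction l with
  | nil => simp
  | cons x l ih => have := h x; simp at ih ⊢; omega

theorem parseList_listCode (l : List ℕ) (r : List Bool) : parseList (listCode l ++ r) = (l, r) := by
  have h := length_le_flatten natCode l (fun x => by simp [Crest.Enc.natCode])
  unfold parseList Crest.Enc.listCode
  rw [List.append_assoc, parseNat_natCode, min_eq_right (by simp at h ⊢; omega)]
  exact parseRep_code _ _ _ (fun x _ r => parseNat_natCode x r) r

theorem parseList_len (w : List Bool) : (parseList w).2.length ≤ w.length :=
  (parseRep_len _ parseNat_len _ _).trans (parseNat_len _)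

@[fun_prop] theorem PT.parseList {w : α → List Bool} (h : PT w) : PT (fun a => parseList (w a)) :=
  PT.parseRep (p := fun _ => PTime.parseNat) (by fun_prop) (fun _ => parseNat_len) (by fun_prop)
    (by fun_prop) (by fun_prop)

attribute [irreducible] parseList

/-! ## bridges -/

theorem PT.polyTimePred {f : List Bool → Bool} (h : PT f) : PolyTimePred f :=
  PT.computable _ _ f (fun b => [b]) 1 (fun _ => rfl) (h.cons (PT.const [])) fun a => by
    simp [Computability.encodingList, Computability.encodeBool]

def unpairStep (s : Option Bool × List Bool × List Bool) (b : Bool) :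
    Option Bool × List Bool × List Bool :=
  s.1.elim (some b, s.2) (fun t => (none, cond t (s.2.1, s.2.2 ++ [b]) (s.2.1 ++ [b], s.2.2)))

theorem PT.computable₂ {β : Type} (eb : β → List Bool) (f : List Bool × List Bool → β)
    (h : PT (fun x => eb (f x))) : PolyTimeComputable pairEnc eb f := by
  have h1 : PT (fun w : List Bool => w.foldl unpairStep (none, [], [])) := by
    refine PT.foldl_add (f := fun _ s b => unpairStep s b) (by unfold unpairStep; fun_prop)
      (PT.const _) PT.id (g := fun _ => 10) (by fun_prop) ?_
    rintro - ⟨o, l, m⟩ b -
    have h2 := sz_append l [b]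
    have h3 := sz_append m [b]
    have h4 := sz_bool b
    have h5 : PTime.sz (none : Option Bool) = 1 := rfl
    have h6 : ∀ b : Bool, PTime.sz (Option.some b) = PTime.sz b + 2 := fun _ => rfl
    rcases o with _ | _ | _ <;> simp [unpairStep, h5, h6] at h2 h3 ⊢ <;> omega
  refine PT.computable _ _ f (Sum.elim (fun b => [false, b]) (fun b => [true, b])) 2
    (by rintro (_ | _) <;> rfl) (h.comp h1.snd) ?_
  rintro ⟨x, y⟩
  have k1 : ∀ (x l m : List Bool), (x.flatMap fun b => [false, b]).foldl unpairStep (none, l, m) =
      (none, l ++ x, m) := by
    intro x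
    induction x with
    | nil => simp
    | cons b x ih => intro l m; simp [unpairStep, ih]
  have k2 : ∀ (x l m : List Bool), (x.flatMap fun b => [true, b]).foldl unpairStep (none, l, m) =
      (none, l, m ++ x) := by
    intro x
    induction x with
    | nil => simp
    | cons b x ih => intro l m; simp [unpairStep, ih]
  simp [pairEnc, Computability.encodingProd, Computability.encodingList, List.flatMap_map, k1, k2]

theorem PT.polyTimePred₂ {f : List Bool × List Bool → Bool} (h : PT f) : PolyTimePred₂ f :=
  PT.computable₂ _ f (h.cons (PT.const []))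

theorem PT.inP {L : Set (List Bool)} (h : PT (fun x => x ∈ L)) : InP L := by
  classical exact ⟨_, h.decide.polyTimePred, fun x => by simp⟩

theorem PT.inNP {L : Set (List Bool)} {V : List Bool × List Bool → Prop} (h : PT V)
    (p : Polynomial ℕ) (hL : ∀ x, x ∈ L ↔ ∃ w : List Bool, w.length ≤ p.eval x.length ∧ V (x, w)) :
    InNP L := by
  classical exact ⟨_, p, h.decide.polyTimePred₂, fun x => by simpa using hL x⟩

end Crest.Agent.PTime
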