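import Crest.Agent.Lib.PT.Nat

/-!
# Equality tests, more list operations, big operators over ranges
-/

set_option autoImplicit false

namespace Crest.Agent.PTime

variable {α β γ σ : Type*} [Enc α] [Enc β] [Enc γ] [Enc σ]

/-! ## equality -/

def flatStep (s : List T × List Bool) : List T × List Bool :=
  List.casesOn s.1 s (fun t r => cond t.isNode (t.left :: t.right :: r, true :: s.2) (r, false :: s.2))

theorem flatStep_iter (i : ℕ) : ∀ s : List T × List Bool, i ≤ (s.1.map T.size).sum →
    (((flatStep^[i] s).1.map T.size).sum + i = (s.1.map T.size).sum ∧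
    (flatStep^[i] s).2.reverse ++ (flatStep^[i] s).1.flatMap T.bits =
      s.2.reverse ++ s.1.flatMap T.bits ∧ sz (flatStep^[i] s).1 ≤ sz s.1 ∧
      (flatStep^[i] s).2.length = s.2.length + i) := by
  induction i with
  | zero => intro s _; simp
  | succ i ih =>
    rintro ⟨st, out⟩ h
    rw [Function.iterate_succ_apply]
    cases st with
    | nil => simp at h
    | cons t r =>
      cases t with
      | leaf =>
        have := ih (r, false :: out) (by simp [T.size] at h ⊢; omega)
        change _ ∧ (flatStep^[i] (r, false :: out)).2.reverse ++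
          (flatStep^[i] (r, false :: out)).1.flatMap T.bits = _ ∧
          sz (flatStep^[i] (r, false :: out)).1 ≤ _ ∧ (flatStep^[i] (r, false :: out)).2.length = _
        refine ⟨?_, ?_, ?_, ?_⟩
        · change ((flatStep^[i] (r, false :: out)).1.map T.size).sum + _ = _
          have := this.1; simp [T.size] at this ⊢; omega
        · rw [this.2.1]; simp [T.bits]
        · have := this.2.2.1; simp at this ⊢; omega
        · rw [this.2.2.2]; simp; omega
      | node l u =>
        have := ih (l :: u :: r, true :: out) (by simp [T.size] at h ⊢; omega)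
        change _ ∧ (flatStep^[i] (l :: u :: r, true :: out)).2.reverse ++
          (flatStep^[i] (l :: u :: r, true :: out)).1.flatMap T.bits = _ ∧
          sz (flatStep^[i] (l :: u :: r, true :: out)).1 ≤ _ ∧
          (flatStep^[i] (l :: u :: r, true :: out)).2.length = _
        refine ⟨?_, ?_, ?_, ?_⟩
        · change ((flatStep^[i] (l :: u :: r, true :: out)).1.map T.size).sum + _ = _
          have := this.1; simp [T.size] at this ⊢; omega
        · rw [this.2.1]; simp [T.bits]
        · have := this.2.2.1; simp [T.size] at this ⊢; omega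
        · rw [this.2.2.2]; simp; omega

theorem sum_size_eq_zero {l : List T} : (l.map T.size).sum = 0 ↔ l = [] := by
  cases l with
  | nil => simp
  | cons t l => have := t.size_pos; simp; omega

theorem PT.tbits : PT T.bits := by
  have h1 : PT flatStep := by
    unfold flatStep
    refine PT.list_cases (by fun_prop) PT.id ?_
    have a1 : PT (fun p : (List T × List Bool) × T × List T => p.2.1) := by fun_prop
    exact (PT.isNode.comp a1).cond (((PT.left.comp a1).cons ((PT.right.comp a1).cons
      (by fun_prop))).pair (by fun_prop)) (by fun_prop)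
  have h2 := PT.while_loop (f := flatStep) (c := fun s => !s.1.isEmpty)
    (init := fun t : T => ([t], [])) (N := fun t => t.size) h1 (by fun_prop) (by fun_prop)
    PT.id.pb_sz (fun t i hi => by
      have := (flatStep_iter i ([t], []) (by simp; omega)).1
      have h3 : (flatStep^[i] ([t], [])).1 ≠ [] := by
        rw [Ne, ← sum_size_eq_zero]; simp at this; omega
      simpa using h3)
    (fun t => by
      have := (flatStep_iter t.size ([t], []) (by simp)).1
      have h3 : (flatStep^[t.size] ([t], [])).1 = [] := by
        rw [← sum_size_eq_zero]; simp at this; omega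
      simpa using h3) ?_
  · refine h2.snd.reverse.congr fun t => ?_
    have := flatStep_iter t.size ([t], []) (by simp)
    have h3 : (flatStep^[t.size] ([t], [])).1 = [] := by
      rw [← sum_size_eq_zero]; have := this.1; simp at this; omega
    have h4 := this.2.1
    rw [h3] at h4
    simpa using h4.symm
  · refine ⟨5 * Polynomial.X + 4, fun t i hi => ?_⟩
    obtain ⟨-, -, h3, h4⟩ := flatStep_iter i ([t], []) (by simp; omega)
    have := sz_bits_le (flatStep^[i] ([t], [])).2
    rw [sz_prod]
    simp at h3 h4 ⊢; omega

@[fun_prop] theorem PT.sz {f : α → β} (hf : PT f) : PT (fun a => sz (f a)) :=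
  (PT.tbits.comp (PT.enc.comp hf)).length.congr fun _ => (T.length_bits _).symm

theorem T.bits_append_inj : ∀ (t u : T) (r s : List Bool), t.bits ++ r = u.bits ++ s → t = u ∧ r = s
  | .leaf, .leaf, r, s, h => by simpa [T.bits] using h
  | .leaf, .node _ _, r, s, h => by simp [T.bits] at h
  | .node _ _, .leaf, r, s, h => by simp [T.bits] at h
  | .node a b, .node c d, r, s, h => by
    simp only [T.bits, List.cons_append, List.append_assoc, List.cons.injEq, true_and] at h
    obtain ⟨h1, h2⟩ := T.bits_append_inj a c _ _ h
    obtain ⟨h3, h4⟩ := T.bits_append_inj b d _ _ h2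
    exact ⟨by rw [h1, h3], h4⟩

theorem ofBits_true_inj : ∀ (l m : List Bool), ofBits (l ++ [true]) = ofBits (m ++ [true]) → l = m
  | [], [], _ => rfl
  | [], b :: m, h => by
    have := ofBits_concat m true
    have h2 : 0 < 2 ^ m.length := by positivity
    simp at h this; omega
  | b :: l, [], h => by
    have := ofBits_concat l true
    have h2 : 0 < 2 ^ l.length := by positivity
    simp at h this; omega
  | b :: l, c :: m, h => by
    simp only [List.cons_append, ofBits_cons] at h
    have h1 : b = c := by cases b <;> cases c <;> simp at h ⊢ <;> omega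
    subst h1
    rw [ofBits_true_inj l m (by omega)]

/-- injective encodings -/
class EncInj (α : Type*) [Enc α] : Prop where
  inj : Function.Injective (enc : α → T)

instance : EncInj T := ⟨fun _ _ h => h⟩
instance : EncInj Unit := ⟨fun _ _ _ => rfl⟩
instance : EncInj Bool := ⟨fun a b h => by cases a <;> cases b <;> simp_all⟩
instance [EncInj α] [EncInj β] : EncInj (α × β) := ⟨fun a b h => by
  simp only [enc_prod, T.node.injEq] at h
  exact Prod.ext (EncInj.inj h.1) (EncInj.inj h.2)⟩
instance [EncInj α] : EncInj (List α) := ⟨fun a => by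
  induction a with
  | nil => intro b h; cases b <;> simp_all
  | cons x a ih =>
    intro b h
    cases b with
    | nil => simp at h
    | cons y b =>
      simp only [enc_cons, T.node.injEq] at h
      rw [EncInj.inj h.1, ih h.2]⟩
instance [EncInj α] : EncInj (Option α) := ⟨fun a b h => by
  have : a.toList = b.toList := EncInj.inj h
  cases a <;> cases b <;> simp_all⟩
instance : EncInj U := ⟨fun a b h => by
  have : List.replicate a.val () = List.replicate b.val () := EncInj.inj h
  ext; simpa using congrArg List.length this⟩
instance : EncInj ℕ := ⟨fun a b h => by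
  have : a.bits = b.bits := EncInj.inj h
  rw [← ofBits_bits a, this, ofBits_bits]⟩
instance : EncInj Prop := ⟨fun a b h => by
  classical
  rw [enc_prop, enc_prop] at h
  simpa using (EncInj.inj h : decide a = decide b)⟩

instance (n : ℕ) : Enc (Fin n) := ⟨fun i => enc i.val⟩
instance (n : ℕ) : EncInj (Fin n) := ⟨fun _ _ h => Fin.ext (EncInj.inj h)⟩

@[fun_prop] theorem PT.fin_val {n : ℕ} {f : α → Fin n} (h : PT f) : PT (fun a => (f a).val) :=
  h.of_enc fun _ => rfl

instance : Enc (α ⊕ β) :=
  ⟨fun x => x.elim (fun a => .node .leaf (enc a)) (fun b => .node (.node .leaf .leaf) (enc b))⟩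

instance {p : α → Prop} : Enc (Subtype p) := ⟨fun x => enc x.1⟩

@[fun_prop] theorem PT.subtype_val {p : β → Prop} {f : α → Subtype p} (h : PT f) :
    PT (fun a => (f a).val) := h.of_enc fun _ => rfl

@[fun_prop] theorem PT.eq [EncInj β] {f g : α → β} (hf : PT f) (hg : PT g) :
    PT (fun a => f a = g a) := by
  have h1 := ((PT.tbits.comp (PT.enc.comp hf)).append (PT.const [true])).ofBits
  have h2 := ((PT.tbits.comp (PT.enc.comp hg)).append (PT.const [true])).ofBits
  refine ((h1.le h2).and (h2.le h1)).congr_prop fun a => ⟨fun h => by rw [h]; simp, fun h => ?_⟩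
  have h3 := ofBits_true_inj _ _ (le_antisymm h.1 h.2)
  exact EncInj.inj (T.bits_append_inj _ _ [] [] (by simpa using h3)).1

@[fun_prop] theorem PT.ne [EncInj β] {f g : α → β} (hf : PT f) (hg : PT g) :
    PT (fun a => f a ≠ g a) := (hf.eq hg).not

@[fun_prop] theorem PT.beq [EncInj β] [BEq β] [LawfulBEq β] {f g : α → β} (hf : PT f) (hg : PT g) :
    PT (fun a => f a == g a) := by
  classical exact (hf.eq hg).decide.congr fun a => by by_cases h : f a = g a <;> simp [h]

@[fun_prop] theorem PT.bne [EncInj β] [BEq β] [LawfulBEq β] {f g : α → β} (hf : PT f) (hg : PT g) :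
    PT (fun a => f a != g a) := (hf.beq hg).bnot

@[fun_prop] theorem PT.mem [EncInj β] {f : α → β} {l : α → List β} (hf : PT f) (hl : PT l) :
    PT (fun a => f a ∈ l a) :=
  (PT.exists_mem (p := fun a b => b = f a) (PT.eq (by fun_prop) (hf.comp (by fun_prop))) hl).congr_prop
    fun a => by simp

@[fun_prop] theorem PT.contains [EncInj β] [BEq β] [LawfulBEq β] {f : α → β} {l : α → List β}
    (hf : PT f) (hl : PT l) : PT (fun a => (l a).contains (f a)) := by
  classical exact (hf.mem hl).decide.congr fun a => by simp

/-! ## more list operations -/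

@[fun_prop] theorem PT.drop {n : α → ℕ} {l : α → List β} (hn : PT n) (hl : PT l) :
    PT (fun a => (l a).drop (n a)) := by
  have key : ∀ (i : ℕ) (m : List β), List.tail^[i] m = m.drop i := by
    intro i
    induction i with
    | zero => simp
    | succ i ih => intro m; rw [Function.iterate_succ_apply, ih]; simp
  have := PT.iterate (f := fun (_ : α) (m : List β) => m.tail) (init := l)
    (n := fun a => Min.min (l a).length (n a)) (by fun_prop) hl (by fun_prop) (by fun_prop)
    hl.pb_sz (fun a i _ => by
      show PTime.sz (List.tail^[i] (l a)) ≤ _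
      rw [key]; exact sz_sublist (List.drop_sublist _ _))
  refine this.congr fun a => ?_
  show _ = List.tail^[_] (l a)
  rw [key]
  rcases le_total (l a).length (n a) with h | h
  · rw [min_eq_left h, List.drop_eq_nil_of_le h, List.drop_length]
  · rw [min_eq_right h]

@[fun_prop] theorem PT.take {n : α → ℕ} {l : α → List β} (hn : PT n) (hl : PT l) :
    PT (fun a => (l a).take (n a)) :=
  ((hl.length.sub hn).drop hl.reverse).reverse.congr fun a => by
    rw [List.drop_reverse]
    rcases le_total (l a).length (n a) with h | h
    · simp [Nat.sub_eq_zero_of_le h, List.take_of_length_le h]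
    · simp [Nat.sub_sub_self h]

@[fun_prop] theorem PT.getElem? {n : α → ℕ} {l : α → List β} (hn : PT n) (hl : PT l) :
    PT (fun a => (l a)[n a]?) :=
  (hn.drop hl).head?.congr fun _ => List.head?_drop.symm

@[fun_prop] theorem PT.getD {n : α → ℕ} {l : α → List β} {d : α → β} (hn : PT n) (hl : PT l)
    (hd : PT d) : PT (fun a => (l a).getD (n a) (d a)) :=
  ((hn.getElem? hl).getD_option hd).congr fun _ => List.getD_eq_getElem?_getD

@[fun_prop] theorem PT.getLast? {l : α → List β} (hl : PT l) : PT (fun a => (l a).getLast?) :=
  hl.reverse.head?.congr fun _ => by simp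

@[fun_prop] theorem PT.dropLast {l : α → List β} (hl : PT l) : PT (fun a => (l a).dropLast) :=
  ((hl.length.sub (PT.const 1)).take hl).congr fun _ => List.dropLast_eq_take

@[fun_prop] theorem PT.eraseIdx {n : α → ℕ} {l : α → List β} (hn : PT n) (hl : PT l) :
    PT (fun a => (l a).eraseIdx (n a)) :=
  ((hn.take hl).append ((hn.add (PT.const 1)).drop hl)).congr fun _ =>
    List.eraseIdx_eq_take_drop_succ _ _

@[fun_prop] theorem PT.set {n : α → ℕ} {l : α → List β} {f : α → β} (hn : PT n) (hl : PT l)
    (hf : PT f) : PT (fun a => (l a).set (n a) (f a)) :=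
  ((hn.lt hl.length).ite ((hn.take hl).append (hf.cons ((hn.add (PT.const 1)).drop hl))) hl).congr
    fun _ => List.set_eq_take_append_cons_drop

@[fun_prop] theorem PT.zip {l : α → List β} {m : α → List γ} (hl : PT l) (hm : PT m) :
    PT (fun a => (l a).zip (m a)) := by
  have h1 : PT (fun p : (α × ℕ) × β => ((m p.1.1)[p.1.2]?).map (fun y => (p.2, y))) := by
    fun_prop
  have h2 : PT (fun p : α × ℕ => ((l p.1)[p.2]?).bind
      (fun x => ((m p.1)[p.2]?).map (fun y => (x, y)))) := PT.option_bind h1 (by fun_prop)
  refine (PT.filterMap (f := fun a i => ((l a)[i]?).bind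
      (fun x => ((m a)[i]?).map (fun y => (x, y)))) h2 (hl.length.range (by fun_prop))).congr fun a => ?_
  generalize l a = l
  generalize m a = m
  induction l generalizing m with
  | nil => simp
  | cons x l ih =>
    cases m with
    | nil => simp
    | cons y m =>
      rw [List.length_cons, List.range_succ_eq_map, List.zip_cons_cons, ih m]
      simp [List.filterMap_map]

@[fun_prop] theorem PT.zipWith {δ : Type*} [Enc δ] {f : α → β → γ → δ} {l : α → List β}
    {m : α → List γ} (hf : PT (fun p : α × β × γ => f p.1 p.2.1 p.2.2)) (hl : PT l) (hm : PT m) :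
    PT (fun a => List.zipWith (f a) (l a) (m a)) :=
  (PT.map (f := fun a (p : β × γ) => f a p.1 p.2) hf (hl.zip hm)).congr fun a => by
    rw [List.map_zip_eq_zipWith]; rfl

@[fun_prop] theorem PT.countP {f : α → β → Bool} {l : α → List β}
    (hf : PT (fun p : α × β => f p.1 p.2)) (hl : PT l) : PT (fun a => (l a).countP (f a)) :=
  (PT.filter hf hl).length.congr fun _ => List.countP_eq_length_filter

@[fun_prop] theorem PB.countP {f : α → β → Bool} {l : α → List β} (hl : PT l) :
    PB (fun a => (l a).countP (f a)) := (PB.length hl).mono fun _ => List.countP_le_length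

@[fun_prop] theorem PT.takeWhile {f : α → β → Bool} {l : α → List β}
    (hf : PT (fun p : α × β => f p.1 p.2)) (hl : PT l) : PT (fun a => (l a).takeWhile (f a)) := by
  have key : ∀ (g : β → Bool) (m : List β) (s : List β),
      (m.foldl (fun (s : Bool × List β) b => _root_.cond (s.1 && g b) (true, s.2 ++ [b]) (false, s.2))
        (true, s)).2 = s ++ m.takeWhile g := by
    intro g m
    induction m with
    | nil => simp
    | cons b m ih =>
      intro s
      cases h : g b
      · have : ∀ m : List β, m.foldl (fun (s : Bool × List β) b =>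
            _root_.cond (s.1 && g b) (true, s.2 ++ [b]) (false, s.2)) (false, s) = (false, s) := by
          intro m
          induction m with
          | nil => rfl
          | cons c m ih => simpa using ih
        simp [h, this]
      · simp [h, ih]
  have h1 : PT (fun p : α × (Bool × List β) × β => f p.1 p.2.2) :=
    hf.comp (g := fun p : α × (Bool × List β) × β => (p.1, p.2.2)) (by fun_prop)
  have := PT.foldl_add (f := fun a (s : Bool × List β) b =>
      _root_.cond (s.1 && f a b) (true, s.2 ++ [b]) (false, s.2)) (init := fun _ => (true, []))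
    (by fun_prop) (PT.const _) hl (g := fun p => PTime.sz p.2 + 4) (by fun_prop) (fun a s b _ => by
      have h2 := sz_append s.2 [b]
      have h3 := sz_bool true
      have h4 := sz_bool false
      have h5 := sz_pos s.1
      rw [sz_prod s]
      cases (s.1 && f a b) <;> simp at h2 ⊢ <;> omega)
  exact this.snd.congr fun a => by rw [key]; simp

@[fun_prop] theorem PT.dropWhile {f : α → β → Bool} {l : α → List β}
    (hf : PT (fun p : α × β => f p.1 p.2)) (hl : PT l) : PT (fun a => (l a).dropWhile (f a)) :=
  ((PT.takeWhile hf hl).length.drop hl).congr fun a => by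
    induction l a with
    | nil => rfl
    | cons b t ih => cases h : f a b <;> simp [h, ih]

@[fun_prop] theorem PT.findIdx {f : α → β → Bool} {l : α → List β}
    (hf : PT (fun p : α × β => f p.1 p.2)) (hl : PT l) : PT (fun a => (l a).findIdx (f a)) :=
  (PT.takeWhile (f := fun a b => !f a b) hf.bnot hl).length.congr fun a => by
    induction l a with
    | nil => rfl
    | cons b t ih => cases h : f a b <;> simp [List.findIdx_cons, h, ih]

@[fun_prop] theorem PB.findIdx {f : α → β → Bool} {l : α → List β} (hl : PT l) :
    PB (fun a => (l a).findIdx (f a)) := (PB.length hl).mono fun _ => List.findIdx_le_length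

theorem PT.foldr_add {f : α → β → σ → σ} {init : α → σ} {l : α → List β}
    (hf : PT (fun p : α × β × σ => f p.1 p.2.1 p.2.2)) (hi : PT init) (hl : PT l)
    {g : α × β → ℕ} (hg : PB g) (hb : ∀ a s b, b ∈ l a → PTime.sz (f a b s) ≤ PTime.sz s + g (a, b)) :
    PT (fun a => (l a).foldr (f a) (init a)) :=
  (PT.foldl_add (f := fun a s b => f a b s)
    (hf.comp (g := fun p : α × σ × β => (p.1, p.2.2, p.2.1)) (by fun_prop)) hi hl.reverse hg
    (fun a s b h => hb a s b (List.mem_reverse.1 h))).congr fun _ => by rw [List.foldl_reverse]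

omit [Enc α] in
theorem ofFn_eq_map_range (n : ℕ) (f : ℕ → α) :
    List.ofFn (fun i : Fin n => f i.val) = (List.range n).map f := by
  apply List.ext_getElem <;> simp

omit [Enc α] in
theorem map_finRange_eq (n : ℕ) (f : ℕ → α) :
    (List.finRange n).map (fun i : Fin n => f i.val) = (List.range n).map f := by
  apply List.ext_getElem <;> simp

/-! ## big operators -/

/-- list sums are polynomial time -/
class PTSum (β : Type*) [Enc β] [AddCommMonoid β] : Prop where
  sum : PT (fun l : List β => l.sum)

/-- list products are polynomial time -/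
class PTProd (β : Type*) [Enc β] [CommMonoid β] : Prop where
  prod : PT (fun l : List β => l.prod)

instance : PTSum ℕ := ⟨PT.id.list_sum⟩
instance : PTProd ℕ := ⟨PT.id.list_prod⟩

omit [Enc β] in
theorem sum_range_eq [AddCommMonoid β] (n : ℕ) (f : ℕ → β) :
    ∑ i ∈ Finset.range n, f i = ((List.range n).map f).sum := by
  induction n with
  | zero => simp
  | succ n ih => simp [Finset.sum_range_succ, List.range_succ, ih]

omit [Enc β] in
theorem prod_range_eq [CommMonoid β] (n : ℕ) (f : ℕ → β) :
    ∏ i ∈ Finset.range n, f i = ((List.range n).map f).prod := by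
  induction n with
  | zero => simp
  | succ n ih => simp [Finset.prod_range_succ, List.range_succ, ih]

@[fun_prop] theorem PT.sum_range [AddCommMonoid β] [PTSum β] {n : α → ℕ} {f : α → ℕ → β} (hn : PT n)
    (hb : PB n) (hf : PT (fun p : α × U => f p.1 p.2.val)) :
    PT (fun a => ∑ i ∈ Finset.range (n a), f a i) :=
  (PTSum.sum.comp (PT.map_range hn hb hf)).congr fun _ => sum_range_eq _ _

@[fun_prop] theorem PT.prod_range [CommMonoid β] [PTProd β] {n : α → ℕ} {f : α → ℕ → β} (hn : PT n)
    (hb : PB n) (hf : PT (fun p : α × U => f p.1 p.2.val)) :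
    PT (fun a => ∏ i ∈ Finset.range (n a), f a i) :=
  (PTProd.prod.comp (PT.map_range hn hb hf)).congr fun _ => prod_range_eq _ _

@[fun_prop] theorem PT.sum_range_erase [AddCommMonoid β] [PTSum β] {n k : α → ℕ} {f : α → ℕ → β}
    (hn : PT n) (hb : PB n) (hk : PT k) (hf : PT (fun p : α × U => f p.1 p.2.val)) :
    PT (fun a => ∑ i ∈ (Finset.range (n a)).erase (k a), f a i) :=
  (PT.sum_range (f := fun a i => if i ≠ k a then f a i else 0) hn hb
    (PT.ite (PT.ne (by fun_prop) (hk.comp (by fun_prop))) hf (PT.const _))).congr fun a => by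
      rw [← Finset.sum_filter, Finset.filter_ne']

@[fun_prop] theorem PT.prod_range_erase [CommMonoid β] [PTProd β] {n k : α → ℕ} {f : α → ℕ → β}
    (hn : PT n) (hb : PB n) (hk : PT k) (hf : PT (fun p : α × U => f p.1 p.2.val)) :
    PT (fun a => ∏ i ∈ (Finset.range (n a)).erase (k a), f a i) :=
  (PT.prod_range (f := fun a i => if i ≠ k a then f a i else 1) hn hb
    (PT.ite (PT.ne (by fun_prop) (hk.comp (by fun_prop))) hf (PT.const _))).congr fun a => by
      rw [← Finset.prod_filter, Finset.filter_ne']

@[fun_prop] theorem PT.prod_Ioo [CommMonoid β] [PTProd β] {m n : α → ℕ} {f : α → ℕ → β}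
    (hm : PT m) (hn : PT n) (hb : PB n) (hf : PT (fun p : α × U => f p.1 p.2.val)) :
    PT (fun a => ∏ i ∈ Finset.Ioo (m a) (n a), f a i) :=
  (PT.prod_range (f := fun a i => if m a < i then f a i else 1) hn hb
    (PT.ite (PT.lt (hm.comp (by fun_prop)) (by fun_prop)) hf (PT.const _))).congr fun a => by
      rw [← Finset.prod_filter]; congr 1; ext i; simp [and_comm]

@[fun_prop] theorem PT.sum_Ico [AddCommMonoid β] [PTSum β] {m n : α → ℕ} {f : α → ℕ → β}
    (hm : PT m) (hn : PT n) (hb : PB n) (hf : PT (fun p : α × U => f p.1 p.2.val)) :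
    PT (fun a => ∑ i ∈ Finset.Ico (m a) (n a), f a i) :=
  (PT.sum_range (f := fun a i => if m a ≤ i then f a i else 0) hn hb
    (PT.ite (PT.le (hm.comp (by fun_prop)) (by fun_prop)) hf (PT.const _))).congr fun a => by
      rw [← Finset.sum_filter]; congr 1; ext i; simp [and_comm]

@[fun_prop] theorem PT.prod_Ico [CommMonoid β] [PTProd β] {m n : α → ℕ} {f : α → ℕ → β}
    (hm : PT m) (hn : PT n) (hb : PB n) (hf : PT (fun p : α × U => f p.1 p.2.val)) :
    PT (fun a => ∏ i ∈ Finset.Ico (m a) (n a), f a i) :=
  (PT.prod_range (f := fun a i => if m a ≤ i then f a i else 1) hn hb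
    (PT.ite (PT.le (hm.comp (by fun_prop)) (by fun_prop)) hf (PT.const _))).congr fun a => by
      rw [← Finset.prod_filter]; congr 1; ext i; simp [and_comm]

end Crest.Agent.PTime
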