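import Mathlib
import Crest.Prelude.Def_Complexity

/-!
# A small structured stack language and its compilation to `Turing.FinTM2`
-/

set_option autoImplicit false
open Turing Function

namespace Crest.Agent.PTime

/-- names of the four working stacks -/
inductive K | s | a | b | c
  deriving DecidableEq, Fintype

/-- contents of the four working stacks -/
@[ext] structure St where
  s : List Bool
  a : List Bool
  b : List Bool
  c : List Bool

def St.get (x : St) : K → List Bool
  | .s => x.s | .a => x.a | .b => x.b | .c => x.c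

def St.set (x : St) : K → List Bool → St
  | .s, l => { x with s := l } | .a, l => { x with a := l }
  | .b, l => { x with b := l } | .c, l => { x with c := l }

/-- structured programs -/
inductive P
  | skip
  | push (k : K) (x : Bool)
  | seq (p q : P)
  | case (k : K) (pn pf pt : P)
  | loop (k : K) (pf pt : P)

/-- big-step semantics with a step count -/
inductive Ev : P → St → St → ℕ → Prop
  | skip (x : St) : Ev .skip x x 1
  | push (k : K) (b : Bool) (x : St) : Ev (.push k b) x (x.set k (b :: x.get k)) 1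
  | seq {p q : P} {x y z : St} {m n : ℕ} : Ev p x y m → Ev q y z n → Ev (.seq p q) x z (m + n)
  | caseN {k : K} {pn pf pt : P} {x y : St} {n : ℕ} :
      x.get k = [] → Ev pn x y n → Ev (.case k pn pf pt) x y (n + 1)
  | caseF {k : K} {pn pf pt : P} {x y : St} {n : ℕ} {r : List Bool} :
      x.get k = false :: r → Ev pf (x.set k r) y n → Ev (.case k pn pf pt) x y (n + 1)
  | caseT {k : K} {pn pf pt : P} {x y : St} {n : ℕ} {r : List Bool} :
      x.get k = true :: r → Ev pt (x.set k r) y n → Ev (.case k pn pf pt) x y (n + 1)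
  | loopN {k : K} {pf pt : P} {x : St} : x.get k = [] → Ev (.loop k pf pt) x x 1
  | loopF {k : K} {pf pt : P} {x y z : St} {m n : ℕ} {r : List Bool} :
      x.get k = false :: r → Ev pf (x.set k r) y m → Ev (.loop k pf pt) y z n →
      Ev (.loop k pf pt) x z (m + n + 1)
  | loopT {k : K} {pf pt : P} {x y z : St} {m n : ℕ} {r : List Bool} :
      x.get k = true :: r → Ev pt (x.set k r) y m → Ev (.loop k pf pt) y z n →
      Ev (.loop k pf pt) x z (m + n + 1)

/-- total length of the stacks -/
def St.len (x : St) : ℕ := x.s.length + x.a.length + x.b.length + x.c.length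

theorem St.len_set (x : St) (k : K) (l : List Bool) :
    (x.set k l).len + (x.get k).length = x.len + l.length := by
  cases k <;> simp [St.set, St.get, St.len] <;> omega

theorem Ev.len_le {p : P} {x y : St} {n : ℕ} (h : Ev p x y n) : y.len ≤ x.len + n := by
  induction h with
  | skip x => omega
  | push k b x => have := x.len_set k (b :: x.get k); simp at this; omega
  | seq _ _ ih1 ih2 => omega
  | caseN _ _ ih => omega
  | @caseF k _ _ _ x _ _ r h _ ih => have := x.len_set k r; rw [h] at this; simp at this; omega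
  | @caseT k _ _ _ x _ _ r h _ ih => have := x.len_set k r; rw [h] at this; simp at this; omega
  | loopN _ => omega
  | @loopF k _ _ x _ _ _ _ r h _ _ ih1 ih2 =>
    have := x.len_set k r; rw [h] at this; simp at this; omega
  | @loopT k _ _ x _ _ _ _ r h _ _ ih1 ih2 =>
    have := x.len_set k r; rw [h] at this; simp at this; omega

/-! ## Compilation -/

/-- labels of a compiled program -/
def Lab : P → Type
  | .skip => Unit
  | .push _ _ => Unit
  | .seq p q => Lab p ⊕ Lab q
  | .case _ pn pf pt => Unit ⊕ Lab pn ⊕ Lab pf ⊕ Lab pt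
  | .loop _ pf pt => Unit ⊕ Lab pf ⊕ Lab pt

@[reducible] def labFin : (p : P) → Fintype (Lab p)
  | .skip => inferInstanceAs (Fintype Unit)
  | .push _ _ => inferInstanceAs (Fintype Unit)
  | .seq p q => @instFintypeSum _ _ (labFin p) (labFin q)
  | .case _ pn pf pt => @instFintypeSum _ _ inferInstance
      (@instFintypeSum _ _ (labFin pn) (@instFintypeSum _ _ (labFin pf) (labFin pt)))
  | .loop _ pf pt => @instFintypeSum _ _ inferInstance (@instFintypeSum _ _ (labFin pf) (labFin pt))

def entry : (p : P) → Lab p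
  | .skip => ()
  | .push _ _ => ()
  | .seq p _ => Sum.inl (entry p)
  | .case _ _ _ _ => Sum.inl ()
  | .loop _ _ _ => Sum.inl ()

section
variable (Γ₀ : Type)

/-- stack alphabets: the input stack has alphabet `Γ₀` -/
def Gam : Option K → Type
  | none => Γ₀
  | some _ => Bool

/-- internal states -/
abbrev Sig : Type := Option Bool × Option Γ₀

variable {Γ₀}

def popBr {Λ : Type} (k : K) (ln lf lt : Λ) : TM2.Stmt (Gam Γ₀) Λ (Sig Γ₀) :=
  TM2.Stmt.pop (some k) (fun v (o : Option Bool) => (o, v.2))
    (TM2.Stmt.goto fun v => match v.1 with | none => ln | some false => lf | some true => lt)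

def tr {Λ : Type} : (p : P) → (Lab p → Λ) → Λ → Lab p → TM2.Stmt (Gam Γ₀) Λ (Sig Γ₀)
  | .skip, _, x, _ => TM2.Stmt.goto fun _ => x
  | .push k b, _, x, _ => TM2.Stmt.push (some k) (fun _ => (b : Bool)) (TM2.Stmt.goto fun _ => x)
  | .seq p q, e, _, Sum.inl l => tr p (fun l => e (Sum.inl l)) (e (Sum.inr (entry q))) l
  | .seq _ q, e, x, Sum.inr l => tr q (fun l => e (Sum.inr l)) x l
  | .case k pn pf pt, e, _, Sum.inl _ =>
      popBr k (e (Sum.inr (Sum.inl (entry pn)))) (e (Sum.inr (Sum.inr (Sum.inl (entry pf)))))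
        (e (Sum.inr (Sum.inr (Sum.inr (entry pt)))))
  | .case _ pn _ _, e, x, Sum.inr (Sum.inl l) => tr pn (fun l => e (Sum.inr (Sum.inl l))) x l
  | .case _ _ pf _, e, x, Sum.inr (Sum.inr (Sum.inl l)) =>
      tr pf (fun l => e (Sum.inr (Sum.inr (Sum.inl l)))) x l
  | .case _ _ _ pt, e, x, Sum.inr (Sum.inr (Sum.inr l)) =>
      tr pt (fun l => e (Sum.inr (Sum.inr (Sum.inr l)))) x l
  | .loop k pf pt, e, x, Sum.inl _ =>
      popBr k x (e (Sum.inr (Sum.inl (entry pf)))) (e (Sum.inr (Sum.inr (entry pt))))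
  | .loop _ pf _, e, _, Sum.inr (Sum.inl l) =>
      tr pf (fun l => e (Sum.inr (Sum.inl l))) (e (Sum.inl ())) l
  | .loop _ _ pt, e, _, Sum.inr (Sum.inr l) =>
      tr pt (fun l => e (Sum.inr (Sum.inr l))) (e (Sum.inl ())) l

/-- the machine stacks -/
def stk (i : List Γ₀) (x : St) : (k : Option K) → List (Gam Γ₀ k)
  | none => i
  | some k => x.get k

theorem stk_update (i : List Γ₀) (x : St) (k : K) (l : List Bool) :
    Function.update (stk i x) (some k) l = stk i (x.set k l) := by
  funext k'
  rcases k' with _ | k'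
  · simp [stk]
  · by_cases h : k' = k
    · subst h; rw [Function.update_self]; cases k' <;> rfl
    · rw [Function.update_of_ne (by simpa using h)]
      cases k <;> cases k' <;> first | rfl | exact absurd rfl h

theorem stk_update_none (i j : List Γ₀) (x : St) :
    Function.update (stk i x) none j = stk j x := by
  funext k'
  rcases k' with _ | k'
  · simp [stk]
  · rw [Function.update_of_ne (by simp)]; rfl

theorem St.set_get (x : St) (k : K) : x.set k (x.get k) = x := by cases k <;> rfl

def Steps {Λ : Type} (M : Λ → TM2.Stmt (Gam Γ₀) Λ (Sig Γ₀)) (n : ℕ)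
    (c c' : TM2.Cfg (Gam Γ₀) Λ (Sig Γ₀)) : Prop :=
  (flip bind (TM2.step M))^[n] (some c) = some c'

theorem Steps.trans {Λ : Type} {M : Λ → TM2.Stmt (Gam Γ₀) Λ (Sig Γ₀)} {m n : ℕ} {c c' c''}
    (h : Steps M m c c') (h' : Steps M n c' c'') : Steps M (m + n) c c'' := by
  unfold Steps at *
  rw [add_comm, Function.iterate_add_apply, h, h']

theorem Steps.one {Λ : Type} {M : Λ → TM2.Stmt (Gam Γ₀) Λ (Sig Γ₀)} {l v S c'}
    (h : TM2.stepAux (M l) v S = c') : Steps M 1 ⟨some l, v, S⟩ c' := by
  unfold Steps; subst h; rfl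

theorem popBr_step {Λ : Type} (k : K) (ln lf lt : Λ) (v : Sig Γ₀) (i : List Γ₀) (x : St) :
    TM2.stepAux (popBr k ln lf lt) v (stk i x) =
      ⟨some (match (x.get k).head? with | none => ln | some false => lf | some true => lt),
        ((x.get k).head?, v.2), stk i (x.set k (x.get k).tail)⟩ := by
  unfold popBr
  rw [TM2.stepAux, TM2.stepAux, ← stk_update]
  rfl

theorem Ev.sim {p : P} {x y : St} {n : ℕ} (h : Ev p x y n) :
    ∀ {Λ : Type} (M : Λ → TM2.Stmt (Gam Γ₀) Λ (Sig Γ₀)) (e : Lab p → Λ) (ex : Λ),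
      (∀ l, M (e l) = tr p e ex l) → ∀ v : Sig Γ₀, ∃ v' : Sig Γ₀,
        Steps M n ⟨some (e (entry p)), v, stk [] x⟩ ⟨some ex, v', stk [] y⟩ := by
  induction h with
  | skip x =>
    intro Λ M e ex hM v
    exact ⟨v, Steps.one (by rw [hM]; rfl)⟩
  | push k b x =>
    intro Λ M e ex hM v
    refine ⟨v, Steps.one ?_⟩
    rw [hM, ← stk_update]; rfl
  | seq _ _ ih1 ih2 =>
    intro Λ M e ex hM v
    obtain ⟨v1, h1⟩ := ih1 M (fun l => e (Sum.inl l)) _ (fun l => hM (Sum.inl l)) v
    obtain ⟨v2, h2⟩ := ih2 M (fun l => e (Sum.inr l)) ex (fun l => hM (Sum.inr l)) v1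
    exact ⟨v2, h1.trans h2⟩
  | @caseN k pn pf pt x y n hk _ ih =>
    intro Λ M e ex hM v
    obtain ⟨v2, h2⟩ := ih M (fun l => e (Sum.inr (Sum.inl l))) ex
      (fun l => hM (Sum.inr (Sum.inl l))) (none, v.2)
    refine ⟨v2, ?_⟩
    rw [add_comm]
    refine Steps.trans (Steps.one ?_) h2
    rw [hM]; refine (popBr_step _ _ _ _ _ _ _).trans ?_
    have : x.set k [] = x := by rw [← hk, St.set_get]
    rw [hk]; simp [this]
  | @caseF k pn pf pt x y n r hk _ ih =>
    intro Λ M e ex hM v
    obtain ⟨v2, h2⟩ := ih M (fun l => e (Sum.inr (Sum.inr (Sum.inl l)))) ex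
      (fun l => hM (Sum.inr (Sum.inr (Sum.inl l)))) (some false, v.2)
    refine ⟨v2, ?_⟩
    rw [add_comm]
    refine Steps.trans (Steps.one ?_) h2
    rw [hM]; refine (popBr_step _ _ _ _ _ _ _).trans ?_
    rw [hk]; rfl
  | @caseT k pn pf pt x y n r hk _ ih =>
    intro Λ M e ex hM v
    obtain ⟨v2, h2⟩ := ih M (fun l => e (Sum.inr (Sum.inr (Sum.inr l)))) ex
      (fun l => hM (Sum.inr (Sum.inr (Sum.inr l)))) (some true, v.2)
    refine ⟨v2, ?_⟩
    rw [add_comm]
    refine Steps.trans (Steps.one ?_) h2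
    rw [hM]; refine (popBr_step _ _ _ _ _ _ _).trans ?_
    rw [hk]; rfl
  | @loopN k pf pt x hk =>
    intro Λ M e ex hM v
    refine ⟨(none, v.2), Steps.one ?_⟩
    rw [hM]; refine (popBr_step _ _ _ _ _ _ _).trans ?_
    have : x.set k [] = x := by rw [← hk, St.set_get]
    rw [hk]; simp [this]
  | @loopF k pf pt x y z m n r hk _ _ ih1 ih2 =>
    intro Λ M e ex hM v
    obtain ⟨v1, h1⟩ := ih1 M (fun l => e (Sum.inr (Sum.inl l))) _
      (fun l => hM (Sum.inr (Sum.inl l))) (some false, v.2)
    obtain ⟨v2, h2⟩ := ih2 M e ex hM v1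
    refine ⟨v2, ?_⟩
    rw [add_comm]
    refine Steps.trans (Steps.one ?_) (h1.trans h2)
    rw [hM]; refine (popBr_step _ _ _ _ _ _ _).trans ?_
    rw [hk]; rfl
  | @loopT k pf pt x y z m n r hk _ _ ih1 ih2 =>
    intro Λ M e ex hM v
    obtain ⟨v1, h1⟩ := ih1 M (fun l => e (Sum.inr (Sum.inr l))) _
      (fun l => hM (Sum.inr (Sum.inr l))) (some true, v.2)
    obtain ⟨v2, h2⟩ := ih2 M e ex hM v1
    refine ⟨v2, ?_⟩
    rw [add_comm]
    refine Steps.trans (Steps.one ?_) (h1.trans h2)
    rw [hM]; refine (popBr_step _ _ _ _ _ _ _).trans ?_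
    rw [hk]; rfl

/-- push the first `w` code bits of the symbol in the state on stack `a` -/
def pushCode {Λ : Type} (code : Γ₀ → List Bool) (q : TM2.Stmt (Gam Γ₀) Λ (Sig Γ₀)) :
    ℕ → ℕ → TM2.Stmt (Gam Γ₀) Λ (Sig Γ₀)
  | _, 0 => q
  | j, w + 1 => TM2.Stmt.push (some K.a)
      (fun v => ((v.2.elim [] code).getD j false : Bool)) (pushCode code q (j + 1) w)

theorem pushCode_step {Λ : Type} (code : Γ₀ → List Bool) (q : TM2.Stmt (Gam Γ₀) Λ (Sig Γ₀))
    (o : Option Bool) (g : Γ₀) (i : List Γ₀) (w : ℕ) : ∀ (j : ℕ) (l : List Bool),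
    j + w = (code g).length →
    TM2.stepAux (pushCode code q j w) (o, some g) (stk i ⟨[], l, [], []⟩) =
      TM2.stepAux q (o, some g) (stk i ⟨[], ((code g).drop j).reverse ++ l, [], []⟩) := by
  induction w with
  | zero =>
    intro j l h
    rw [List.drop_eq_nil_of_le (by omega)]; rfl
  | succ w ih =>
    intro j l h
    rw [pushCode, TM2.stepAux]
    have h1 : j < (code g).length := by omega
    have := stk_update i ⟨[], l, [], []⟩ K.a ((code g).getD j false :: l)
    refine Eq.trans (congrArg (TM2.stepAux _ _) this) ?_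
    have h2 := ih (j + 1) ((code g).getD j false :: l) (by omega)
    refine Eq.trans h2 ?_
    rw [List.drop_eq_getElem_cons h1, List.reverse_cons, List.append_assoc,
      List.getD_eq_getElem _ _ h1]
    rfl

variable [Fintype Γ₀]

/-- the machine for program `p` with input code `code` of width `w` -/
def mach (code : Γ₀ → List Bool) (w : ℕ) (p : P) : FinTM2 where
  K := Option K
  k₀ := none
  k₁ := some K.s
  Γ := Gam Γ₀
  Λ := Bool ⊕ Lab p
  main := Sum.inl false
  ΛFin := @instFintypeSum _ _ inferInstance (labFin p)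
  σ := Sig Γ₀
  initialState := (none, none)
  Γk₀Fin := inferInstanceAs (Fintype Γ₀)
  m := fun l => match l with
    | Sum.inl false => TM2.Stmt.pop none (fun v (o : Option Γ₀) => (v.1, o))
        (TM2.Stmt.branch (fun v => v.2.isSome)
          (pushCode code (TM2.Stmt.goto fun _ => Sum.inl false) 0 w)
          (TM2.Stmt.goto fun _ => Sum.inr (entry p)))
    | Sum.inl true => TM2.Stmt.load (fun _ => (none, none)) TM2.Stmt.halt
    | Sum.inr l => tr p Sum.inr (Sum.inl true) l

theorem mach_prologue (code : Γ₀ → List Bool) (w : ℕ) (hw : ∀ g, (code g).length = w) (p : P)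
    (i : List Γ₀) : ∀ (l : List Bool) (v : Sig Γ₀), ∃ v' : Sig Γ₀,
    Steps (Λ := Bool ⊕ Lab p) (mach code w p).m (i.length + 1)
      ⟨some (Sum.inl false), v, stk i ⟨[], l, [], []⟩⟩
      ⟨some (Sum.inr (entry p)), v', stk [] ⟨[], (i.flatMap code).reverse ++ l, [], []⟩⟩ := by
  induction i with
  | nil =>
    intro l v
    refine ⟨(v.1, none), Steps.one ?_⟩
    have := stk_update_none ([] : List Γ₀) [] ⟨[], l, [], []⟩
    exact congrArg (fun S => (⟨some (Sum.inr (entry p)), (v.1, none), S⟩ :
      TM2.Cfg (Gam Γ₀) (Bool ⊕ Lab p) (Sig Γ₀))) this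
  | cons g i ih =>
    intro l v
    obtain ⟨v', h⟩ := ih ((code g).reverse ++ l) (v.1, some g)
    refine ⟨v', ?_⟩
    have e : (g :: i).length + 1 = 1 + (i.length + 1) := by simp; omega
    rw [e]
    refine Steps.trans (Steps.one ?_) (by simpa using h)
    have h1 := stk_update_none (g :: i) i ⟨[], l, [], []⟩
    have h2 := pushCode_step (Λ := Bool ⊕ Lab p) code (TM2.Stmt.goto fun _ => Sum.inl false) v.1 g i
      w 0 l (by rw [hw]; simp)
    refine Eq.trans (congrArg (TM2.stepAux (pushCode code (TM2.Stmt.goto fun _ => Sum.inl false) 0 w)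
      (v.1, some g)) h1) ?_
    rw [h2]; simp

/-- Main compilation theorem. -/
theorem computable_of_prog {α β : Type} (ea : α → List Γ₀) (eb : β → List Bool) (f : α → β)
    (code : Γ₀ → List Bool) (w : ℕ) (hw : ∀ g, (code g).length = w) (p : P) (q : Polynomial ℕ)
    (h : ∀ a, ∃ n ≤ q.eval (ea a).length,
      Ev p ⟨[], ((ea a).flatMap code).reverse, [], []⟩ ⟨eb (f a), [], [], []⟩ n) :
    Crest.Complexity.PolyTimeComputable ea eb f := by
  classical
  choose n hn hev using h
  refine ⟨{ tm := mach code w p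
            inputAlphabet := Equiv.refl Γ₀
            outputAlphabet := Equiv.refl Bool
            time := q + Polynomial.X + 2
            outputsFun := fun a => ?_ }⟩
  refine { steps := ((ea a).length + 1) + n a + 1, evals_in_steps := ?_, steps_le_m := ?_ }
  · obtain ⟨v1, h1⟩ := mach_prologue code w hw p (ea a) [] (none, none)
    obtain ⟨v2, h2⟩ := (hev a).sim (Γ₀ := Γ₀) (Λ := Bool ⊕ Lab p) (mach code w p).m Sum.inr
      (Sum.inl true) (fun l => rfl) v1
    rw [List.append_nil] at h1
    have h3 : Steps (Λ := Bool ⊕ Lab p) (mach code w p).m 1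
        ⟨some (Sum.inl true), v2, stk [] ⟨eb (f a), [], [], []⟩⟩
        ⟨none, (none, none), stk [] ⟨eb (f a), [], [], []⟩⟩ := Steps.one rfl
    have h4 := (h1.trans h2).trans h3
    have e1 : initList (mach code w p) (List.map (Equiv.refl Γ₀).invFun (ea a)) =
        ⟨some (Sum.inl false), (none, none), stk (ea a) ⟨[], [], [], []⟩⟩ := by
      unfold initList
      congr 1
      funext k
      rcases k with _ | k
      · exact (List.map_id _)
      · cases k <;> rfl
    have e2 : haltList (mach code w p) (List.map (Equiv.refl Bool).invFun (eb (f a))) =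
        ⟨none, (none, none), stk [] ⟨eb (f a), [], [], []⟩⟩ := by
      unfold haltList
      congr 1
      funext k
      rcases k with _ | k
      · rfl
      · cases k
        · exact (List.map_id _)
        all_goals rfl
    refine Eq.trans ?_ (congrArg some e2.symm)
    refine Eq.trans (congrArg (fun c => (flip bind (mach code w p).step)^[_] (some c)) e1) ?_
    exact h4
  · have := hn a
    simp; omega

end

end Crest.Agent.PTime
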