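import Crest.Agent.Lib.PT.Basic

/-!
# Binary natural numbers
-/

set_option autoImplicit false

namespace Crest.Agent.PTime

variable {α β γ σ : Type*} [Enc α] [Enc β] [Enc γ] [Enc σ]

instance : Enc ℕ := ⟨fun n => enc n.bits⟩

theorem sz_nat (n : ℕ) : sz n = sz n.bits := rfl

theorem size_le_sz (n : ℕ) : n.size ≤ sz n := by
  rw [← Nat.size_eq_bits_len]; exact length_le_sz _

theorem lt_two_pow_sz (n : ℕ) : n < 2 ^ sz n :=
  (Nat.lt_size_self n).trans_le (Nat.pow_le_pow_right (by norm_num) (size_le_sz n))

theorem sz_le_of_lt {n k : ℕ} (h : n < 2 ^ k) : sz n ≤ 4 * k + 1 := by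
  have h1 := sz_bits_le n.bits
  rw [Nat.size_eq_bits_len] at h1
  have := Nat.size_le.2 h
  rw [sz_nat]; omega

theorem sz_le_of_le {m n : ℕ} (h : m ≤ n) : sz m ≤ 4 * sz n + 1 :=
  sz_le_of_lt (h.trans_lt (lt_two_pow_sz n))

theorem sz_le_self (n : ℕ) : sz n ≤ 4 * n + 1 := sz_le_of_lt Nat.lt_two_pow_self

@[fun_prop] theorem PT.bits {f : α → ℕ} (h : PT f) : PT (fun a => (f a).bits) :=
  h.of_enc fun _ => rfl

@[fun_prop] theorem PB.size {f : α → ℕ} (h : PT f) : PB (fun a => (f a).size) :=
  h.pb_sz.mono fun _ => size_le_sz _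

@[fun_prop] theorem PB.log {f g : α → ℕ} (h : PT f) : PB (fun a => Nat.log (g a) (f a)) :=
  h.pb_sz.mono fun a => by
    rcases Nat.lt_or_ge 1 (g a) with hg | hg
    · rcases Nat.eq_zero_or_pos (f a) with h0 | h0
      · simp [h0]
      · refine (Nat.log_lt_of_lt_pow h0.ne' ?_).le
        exact (lt_two_pow_sz _).trans_le (Nat.pow_le_pow_left hg _)
    · simp [Nat.log_of_left_le_one hg]

theorem PT.div2 {f : α → ℕ} (h : PT f) : PT (fun a => (f a).div2) :=
  h.bits.tail.of_enc fun a => by rw [← Nat.div2_bits_eq_tail]; rfl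

theorem PT.bodd {f : α → ℕ} (h : PT f) : PT (fun a => (f a).bodd) :=
  (h.bits.headD (PT.const false)).congr fun a => by
    rw [Nat.bodd_eq_bits_head]; cases (f a).bits <;> rfl

theorem bits_eq_nil {n : ℕ} : n.bits = [] ↔ n = 0 := by
  rw [← List.length_eq_zero_iff, Nat.size_eq_bits_len, Nat.size_eq_zero]

theorem PT.eq_zero {f : α → ℕ} (h : PT f) : PT (fun a => f a = 0) :=
  h.bits.isEmpty.of_decide fun a => by simp [bits_eq_nil]

theorem bits_bit (b : Bool) (n : ℕ) :
    (Nat.bit b n).bits = cond (n.bits.isEmpty && !b) [] (b :: n.bits) := by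
  by_cases h : n = 0 → b = true
  · rw [Nat.bits_append_bit n b h]
    by_cases hn : n = 0
    · simp [h hn]
    · have : n.bits.isEmpty = false := by simpa [bits_eq_nil] using hn
      simp [this]
  · push Not at h
    obtain ⟨rfl, hb⟩ := h
    cases b
    · rfl
    · exact absurd rfl hb

theorem PT.bit {b : α → Bool} {f : α → ℕ} (hb : PT b) (h : PT f) :
    PT (fun a => Nat.bit (b a) (f a)) :=
  ((h.bits.isEmpty.band hb.bnot).cond (PT.const []) (hb.cons h.bits)).of_enc fun a => by
    rw [← bits_bit]; rfl

theorem sz_bit (b : Bool) (n : ℕ) : sz (Nat.bit b n) ≤ sz n + 4 := by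
  rw [sz_nat, sz_nat, bits_bit]
  have := sz_bool b
  have := sz_pos n.bits
  cases (n.bits.isEmpty && !b)
  · simp; omega
  · simp

/-- value of a little-endian bit list -/
def ofBits (l : List Bool) : ℕ := l.foldr Nat.bit 0

@[simp] theorem ofBits_nil : ofBits [] = 0 := rfl
@[simp] theorem ofBits_cons (b : Bool) (l : List Bool) :
    ofBits (b :: l) = 2 * ofBits l + b.toNat := by
  rw [ofBits, List.foldr_cons, Nat.bit_val]; rfl

theorem ofBits_bits (n : ℕ) : ofBits n.bits = n := by
  induction n using Nat.binaryRec' with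
  | zero => rfl
  | bit b n h ih => rw [Nat.bits_append_bit n b h, ofBits_cons, ih, Nat.bit_val]

theorem ofBits_lt (l : List Bool) : ofBits l < 2 ^ l.length := by
  induction l with
  | nil => simp
  | cons b l ih => have := Bool.toNat_le b; simp [pow_succ]; omega

theorem ofBits_concat (l : List Bool) (b : Bool) :
    ofBits (l ++ [b]) = ofBits l + 2 ^ l.length * b.toNat := by
  induction l with
  | nil => simp
  | cons c l ih => simp [ih, pow_succ]; ring

@[fun_prop] theorem PT.ofBits {l : α → List Bool} (h : PT l) : PT (fun a => ofBits (l a)) := by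
  have := PT.foldl_add (f := fun (_ : α) (s : ℕ) (b : Bool) => Nat.bit b s) (init := fun _ => 0)
    (PT.bit (by fun_prop) (by fun_prop)) (PT.const _) h.reverse (g := fun _ => 4) (by fun_prop)
    (fun a s b _ => sz_bit b s)
  exact this.congr fun a => by rw [List.foldl_reverse]; rfl

theorem PT.bool3 (o : Bool → Bool → Bool → Bool) {f g h : α → Bool} (hf : PT f) (hg : PT g)
    (hh : PT h) : PT (fun a => o (f a) (g a) (h a)) :=
  (hf.cond (hg.cond (hh.cond (PT.const (o true true true)) (PT.const (o true true false)))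
      (hh.cond (PT.const (o true false true)) (PT.const (o true false false))))
    (hg.cond (hh.cond (PT.const (o false true true)) (PT.const (o false true false)))
      (hh.cond (PT.const (o false false true)) (PT.const (o false false false))))).congr fun a => by
    cases f a <;> cases g a <;> cases h a <;> rfl

/-- bit-serial transducer step -/
def ser (o c : Bool → Bool → Bool → Bool) (s : ℕ × ℕ × Bool × List Bool) :
    ℕ × ℕ × Bool × List Bool :=
  (s.1.div2, s.2.1.div2, c s.1.bodd s.2.1.bodd s.2.2.1, o s.1.bodd s.2.1.bodd s.2.2.1 :: s.2.2.2)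

theorem ser_iter (o c : Bool → Bool → Bool → Bool) (x y i : ℕ) :
    ((ser o c)^[i] (x, y, false, [])).1 = x / 2 ^ i ∧
    ((ser o c)^[i] (x, y, false, [])).2.1 = y / 2 ^ i ∧
    ((ser o c)^[i] (x, y, false, [])).2.2.2.length = i := by
  induction i with
  | zero => simp
  | succ i ih =>
    rw [Function.iterate_succ_apply']
    obtain ⟨h1, h2, h3⟩ := ih
    simp [ser, Nat.div2_val, h1, h2, h3, pow_succ, Nat.div_div_eq_div_mul]

theorem PT.ser (o c : Bool → Bool → Bool → Bool) {f g : α → ℕ} (hf : PT f) (hg : PT g) :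
    PT (fun a => (ser o c)^[(f a).size + (g a).size + 1] (f a, g a, false, [])) := by
  have h1 : PT (fun p : α × ℕ × ℕ × Bool × List Bool => PTime.ser o c p.2) := by
    unfold PTime.ser
    have a1 : PT (fun p : α × ℕ × ℕ × Bool × List Bool => p.2.1) := by fun_prop
    have a2 : PT (fun p : α × ℕ × ℕ × Bool × List Bool => p.2.2.1) := by fun_prop
    exact a1.div2.pair (a2.div2.pair ((PT.bool3 c a1.bodd a2.bodd (by fun_prop)).pair
      ((PT.bool3 o a1.bodd a2.bodd (by fun_prop)).cons (by fun_prop))))
  have := PT.iterateU (f := fun (_ : α) s => PTime.ser o c s) (init := fun a => (f a, g a, false, []))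
    h1 (by fun_prop) (hf.bits.append hg.bits).ulength.usucc
    (B := fun a => 4 * sz (f a) + 4 * sz (g a) + 4 * ((f a).size + (g a).size + 1) + 9)
    (by fun_prop) (fun a i hi => by
      obtain ⟨h1, h2, h3⟩ := ser_iter o c (f a) (g a) i
      generalize (PTime.ser o c)^[i] (f a, g a, false, []) = s at *
      obtain ⟨x, y, b, l⟩ := s
      dsimp only at h1 h2 h3 hi
      have h4 : sz x ≤ 4 * sz (f a) + 1 := sz_le_of_le (h1 ▸ Nat.div_le_self _ _)
      have h5 : sz y ≤ 4 * sz (g a) + 1 := sz_le_of_le (h2 ▸ Nat.div_le_self _ _)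
      have h6 := sz_bits_le l
      have h7 := sz_bool b
      simp [Nat.size_eq_bits_len] at hi ⊢; omega)
  exact this.congr fun a => by simp [Nat.size_eq_bits_len]

theorem ser_add (x y i : ℕ) :
    let s := (ser (fun a b c => xor a (xor b c)) (fun a b c => (a && b) || (c && (a || b))))^[i]
      (x, y, false, [])
    ofBits s.2.2.2.reverse + 2 ^ i * (s.1 + s.2.1 + s.2.2.1.toNat) = x + y := by
  induction i with
  | zero => simp
  | succ i ih =>
    have h3 := (ser_iter (fun a b c => xor a (xor b c))
      (fun a b c => (a && b) || (c && (a || b))) x y i).2.2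
    rw [Function.iterate_succ_apply']
    generalize (ser (fun a b c => xor a (xor b c))
      (fun a b c => (a && b) || (c && (a || b))))^[i] (x, y, false, []) = s at *
    obtain ⟨u, v, b, l⟩ := s
    dsimp only [ser] at *
    rw [List.reverse_cons, ofBits_concat, List.length_reverse, h3, ← ih, pow_succ]
    have h1 := Nat.bodd_add_div2 u
    have h2 := Nat.bodd_add_div2 v
    generalize u.div2 = u' at *
    generalize v.div2 = v' at *
    generalize u.bodd = p at *
    generalize v.bodd = q at *
    subst h1 h2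
    cases p <;> cases q <;> cases b <;> simp <;> ring

theorem ser_sub (x y i : ℕ) :
    let s := (ser (fun a b c => xor a (xor b c)) (fun a b c => (!a && (b || c)) || (b && c)))^[i]
      (x, y, false, [])
    ofBits s.2.2.2.reverse + 2 ^ i * s.1 + y = x + 2 ^ i * (s.2.1 + s.2.2.1.toNat) := by
  induction i with
  | zero => simp
  | succ i ih =>
    have h3 := (ser_iter (fun a b c => xor a (xor b c))
      (fun a b c => (!a && (b || c)) || (b && c)) x y i).2.2
    rw [Function.iterate_succ_apply']
    generalize (ser (fun a b c => xor a (xor b c))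
      (fun a b c => (!a && (b || c)) || (b && c)))^[i] (x, y, false, []) = s at *
    obtain ⟨u, v, b, l⟩ := s
    dsimp only [ser] at *
    rw [List.reverse_cons, ofBits_concat, List.length_reverse, h3, pow_succ]
    have h1 := Nat.bodd_add_div2 u
    have h2 := Nat.bodd_add_div2 v
    generalize u.div2 = u' at *
    generalize v.div2 = v' at *
    generalize u.bodd = p at *
    generalize v.bodd = q at *
    subst h1 h2
    generalize 2 ^ i = w at *
    cases p <;> cases q <;> cases b <;> simp at ih ⊢ <;> nlinarith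

theorem div_size_eq (x k : ℕ) (h : x.size ≤ k) : x / 2 ^ k = 0 :=
  Nat.div_eq_of_lt (Nat.size_le.1 h)

@[fun_prop] theorem PT.add {f g : α → ℕ} (hf : PT f) (hg : PT g) : PT (fun a => f a + g a) := by
  have h := PT.ser (fun a b c => xor a (xor b c)) (fun a b c => (a && b) || (c && (a || b))) hf hg
  refine (h.snd.snd.fst.cons h.snd.snd.snd).reverse.ofBits.congr fun a => ?_
  have h1 := ser_add (f a) (g a) ((f a).size + (g a).size + 1)
  obtain ⟨h2, h3, h4⟩ := ser_iter (fun a b c => xor a (xor b c))
    (fun a b c => (a && b) || (c && (a || b))) (f a) (g a) ((f a).size + (g a).size + 1)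
  rw [div_size_eq _ _ (by omega)] at h2 h3
  dsimp only at h1
  rw [h2, h3] at h1
  rw [List.reverse_cons, ofBits_concat, List.length_reverse, h4, ← h1]; simp

theorem ser_sub_fin (x y : ℕ) :
    let s := (ser (fun a b c => xor a (xor b c))
      (fun a b c => (!a && (b || c)) || (b && c)))^[x.size + y.size + 1] (x, y, false, [])
    (x < y ↔ s.2.2.1 = true) ∧ x - y = cond s.2.2.1 0 (ofBits s.2.2.2.reverse) := by
  have h1 := ser_sub x y (x.size + y.size + 1)
  obtain ⟨h2, h3, h4⟩ := ser_iter (fun a b c => xor a (xor b c))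
    (fun a b c => (!a && (b || c)) || (b && c)) x y (x.size + y.size + 1)
  rw [div_size_eq _ _ (by omega)] at h2 h3
  dsimp only at h1 ⊢
  rw [h2, h3] at h1
  generalize (ser (fun a b c => xor a (xor b c))
      (fun a b c => (!a && (b || c)) || (b && c)))^[x.size + y.size + 1] (x, y, false, []) = s at *
  have h5 := ofBits_lt s.2.2.2.reverse
  rw [List.length_reverse, h4] at h5
  cases h : s.2.2.1 <;> simp [h] at h1 ⊢ <;> omega

@[fun_prop] theorem PT.sub {f g : α → ℕ} (hf : PT f) (hg : PT g) : PT (fun a => f a - g a) := by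
  have h := PT.ser (fun a b c => xor a (xor b c)) (fun a b c => (!a && (b || c)) || (b && c)) hf hg
  exact (h.snd.snd.fst.cond (PT.const 0) h.snd.snd.snd.reverse.ofBits).congr fun a =>
    (ser_sub_fin (f a) (g a)).2

@[fun_prop] theorem PT.lt {f g : α → ℕ} (hf : PT f) (hg : PT g) : PT (fun a => f a < g a) := by
  have h := PT.ser (fun a b c => xor a (xor b c)) (fun a b c => (!a && (b || c)) || (b && c)) hf hg
  exact h.snd.snd.fst.of_decide fun a => (ser_sub_fin (f a) (g a)).1

@[fun_prop] theorem PT.le {f g : α → ℕ} (hf : PT f) (hg : PT g) : PT (fun a => f a ≤ g a) :=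
  (hg.lt hf).not.congr_prop fun _ => not_lt.symm

@[fun_prop] theorem PT.succ {f : α → ℕ} (hf : PT f) : PT (fun a => (f a).succ) :=
  hf.add (PT.const 1)

@[fun_prop] theorem PT.pred {f : α → ℕ} (hf : PT f) : PT (fun a => (f a).pred) :=
  hf.sub (PT.const 1)

@[fun_prop] theorem PT.min {f g : α → ℕ} (hf : PT f) (hg : PT g) : PT (fun a => min (f a) (g a)) :=
  ((hf.le hg).ite hf hg).congr fun _ => min_def _ _

@[fun_prop] theorem PT.max {f g : α → ℕ} (hf : PT f) (hg : PT g) : PT (fun a => max (f a) (g a)) :=
  ((hf.le hg).ite hg hf).congr fun _ => max_def _ _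

@[fun_prop] theorem PT.toNat_bool {f : α → Bool} (hf : PT f) : PT (fun a => (f a).toNat) :=
  (hf.cond (PT.const 1) (PT.const 0)).congr fun a => by cases f a <;> rfl

theorem foldr_lt_of_take {l : List Bool} (i : ℕ) :
    ofBits (l.reverse.take i).reverse < 2 ^ l.length :=
  (ofBits_lt _).trans_le (Nat.pow_le_pow_right (by norm_num) (by simp))

@[fun_prop] theorem PT.mul {f g : α → ℕ} (hf : PT f) (hg : PT g) : PT (fun a => f a * g a) := by
  have key : ∀ (y : ℕ) (l : List Bool),
      l.foldl (fun s b => s + s + _root_.cond b y 0) 0 = PTime.ofBits l.reverse * y := by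
    intro y l
    induction l using List.reverseRecOn with
    | nil => simp
    | append_singleton l b ih => rw [List.foldl_concat, ih]; cases b <;> simp <;> ring
  have h1 : PT (fun p : α × ℕ × Bool => g p.1) := hg.comp (by fun_prop)
  have := PT.foldl (f := fun (a : α) (s : ℕ) (b : Bool) => s + s + _root_.cond b (g a) 0)
    (init := fun _ => 0) (by fun_prop) (PT.const _) hf.bits.reverse
    (B := fun a => 4 * ((f a).size + sz (g a)) + 1) (by fun_prop) (fun a i => by
      rw [key]
      refine sz_le_of_lt ?_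
      rw [pow_add, ← Nat.size_eq_bits_len]
      exact Nat.mul_lt_mul'' (foldr_lt_of_take i) (lt_two_pow_sz _))
  exact this.congr fun a => by rw [key, List.reverse_reverse, ofBits_bits]

theorem PT.divMod {f g : α → ℕ} (hf : PT f) (hg : PT g) :
    PT (fun a => (f a / g a, f a % g a)) := by
  have key : ∀ (y : ℕ) (l : List Bool), 0 < y →
      l.foldl (fun (s : ℕ × ℕ) b => if y ≤ Nat.bit b s.2 then (Nat.bit true s.1, Nat.bit b s.2 - y)
        else (Nat.bit false s.1, Nat.bit b s.2)) (0, 0) =
        (PTime.ofBits l.reverse / y, PTime.ofBits l.reverse % y) := by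
    intro y l hy
    induction l using List.reverseRecOn with
    | nil => simp
    | append_singleton l b ih =>
      rw [List.foldl_concat, ih, List.reverse_append]
      simp only [List.reverse_singleton, List.singleton_append, ofBits_cons, Nat.bit_val]
      generalize PTime.ofBits l.reverse = x
      have h1 := Nat.div_add_mod x y
      have h2 := Nat.mod_lt x hy
      have h3 := Bool.toNat_le b
      generalize x / y = q at *
      generalize x % y = r at *
      subst h1
      split_ifs with h
      · have := (Nat.div_mod_unique (a := 2 * (y * q + r) + b.toNat) (d := 2 * q + 1)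
          (c := 2 * r + b.toNat - y) hy).2 ⟨by
            have : y * (2 * q + 1) = 2 * (y * q) + y := by ring
            omega, by omega⟩
        rw [this.1, this.2]; rfl
      · have := (Nat.div_mod_unique (a := 2 * (y * q + r) + b.toNat) (d := 2 * q)
          (c := 2 * r + b.toNat) hy).2 ⟨by
            have : y * (2 * q) = 2 * (y * q) := by ring
            omega, by omega⟩
        rw [this.1, this.2]; rfl
  have h1 : PT (fun p : α × (ℕ × ℕ) × Bool => Max.max (g p.1) 1) :=
    (hg.comp (by fun_prop)).max (PT.const _)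
  have h2 : PT (fun p : α × (ℕ × ℕ) × Bool => Nat.bit p.2.2 p.2.1.2) :=
    PT.bit (by fun_prop) (by fun_prop)
  have := PT.foldl (f := fun (a : α) (s : ℕ × ℕ) (b : Bool) =>
      if Max.max (g a) 1 ≤ Nat.bit b s.2 then (Nat.bit true s.1, Nat.bit b s.2 - Max.max (g a) 1)
        else (Nat.bit false s.1, Nat.bit b s.2))
    (init := fun _ => (0, 0)) ((h1.le h2).ite ((PT.bit (PT.const _) (by fun_prop)).pair (h2.sub h1))
      ((PT.bit (PT.const _) (by fun_prop)).pair h2)) (PT.const _) hf.bits.reverse
    (B := fun a => 8 * (f a).size + 3) (by fun_prop) (fun a i => by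
      rw [key _ _ (by omega)]
      have h3 := foldr_lt_of_take (l := (f a).bits) i
      rw [Nat.size_eq_bits_len] at h3
      have h4 := sz_le_of_lt ((Nat.div_le_self _ (Max.max (g a) 1)).trans_lt h3)
      have h5 := sz_le_of_lt ((Nat.mod_le _ (Max.max (g a) 1)).trans_lt h3)
      rw [sz_pair]; omega)
  refine (hg.eq_zero.ite ((PT.const 0).pair hf) this).congr fun a => ?_
  split_ifs with h
  · simp [h]
  · rw [key _ _ (by omega), List.reverse_reverse, ofBits_bits, max_eq_left (by omega)]

@[fun_prop] theorem PT.div {f g : α → ℕ} (hf : PT f) (hg : PT g) : PT (fun a => f a / g a) :=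
  (hf.divMod hg).fst

@[fun_prop] theorem PT.mod {f g : α → ℕ} (hf : PT f) (hg : PT g) : PT (fun a => f a % g a) :=
  (hf.divMod hg).snd

@[fun_prop] theorem PT.dvd {f g : α → ℕ} (hf : PT f) (hg : PT g) : PT (fun a => f a ∣ g a) :=
  (hg.mod hf).eq_zero.congr_prop fun _ => Nat.dvd_iff_mod_eq_zero ..

/-! ## between unary and binary -/

@[fun_prop] theorem PT.length {l : α → List β} (hl : PT l) : PT (fun a => (l a).length) := by
  have key : ∀ (m : List β) (s : ℕ), m.foldl (fun s _ => s + 1) s = s + m.length := by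
    intro m
    induction m with
    | nil => simp
    | cons b m ih => intro s; simp [ih]; omega
  have := PT.foldl (f := fun (_ : α) (s : ℕ) (_ : β) => s + 1) (init := fun _ => 0)
    (by fun_prop) (PT.const _) hl (B := fun a => 4 * (l a).length + 1) (by fun_prop) (fun a i => by
      rw [key]
      refine (sz_le_self _).trans ?_
      simp)
  exact this.congr fun a => by simp [key]

@[fun_prop] theorem PT.val {u : α → U} (h : PT u) : PT (fun a => (u a).val) :=
  h.units.length.congr fun a => by simp

@[fun_prop] theorem PT.size {f : α → ℕ} (h : PT f) : PT (fun a => (f a).size) :=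
  h.bits.length.congr fun _ => (Nat.size_eq_bits_len _).symm

/-- a polynomially bounded number can be converted to unary -/
@[fun_prop] theorem PT.toU {f : α → ℕ} (hf : PT f) (hb : PB f) : PT (fun a => (⟨f a⟩ : U)) := by
  have key : ∀ (n i : ℕ), (fun s : ℕ × U => (s.1 - 1, (⟨s.2.val + 1⟩ : U)))^[i] (n, ⟨0⟩) =
      (n - i, ⟨i⟩) := by
    intro n i
    induction i with
    | zero => rfl
    | succ i ih => rw [Function.iterate_succ_apply', ih]; rfl
  have h2 := PT.while_loop (f := fun s : ℕ × U => (s.1 - 1, (⟨s.2.val + 1⟩ : U)))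
    (c := fun s => Decidable.decide (0 < s.1)) (init := fun a => (f a, ⟨0⟩)) (N := f)
    (PT.pair (by fun_prop) (PT.usucc (by fun_prop))) (by fun_prop) (by fun_prop) hb
    (fun a i hi => by rw [key]; simpa using hi) (fun a => by rw [key]; simp) ?_
  · exact h2.snd.congr fun a => by rw [key]
  · obtain ⟨q, hq⟩ : PB (fun a => 6 * f a + 3) := by fun_prop
    refine ⟨q, fun a i hi => le_trans ?_ (hq a)⟩
    rw [key, sz_pair, sz_U]
    have := sz_le_self (f a - i)
    dsimp only; omega

@[fun_prop] theorem PT.replicate {n : α → ℕ} {f : α → β} (hn : PT n) (hb : PB n) (hf : PT f) :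
    PT (fun a => List.replicate (n a) (f a)) := (hn.toU hb).replicateU hf

@[fun_prop] theorem PT.range {n : α → ℕ} (hn : PT n) (hb : PB n) : PT (fun a => List.range (n a)) :=
  (PT.map (f := fun _ (u : U) => u.val) (by fun_prop) (hn.toU hb).rangeU).congr fun a => by
    simp [Function.comp_def]

/-- map over a range; the index is available in unary -/
@[fun_prop] theorem PT.map_range {n : α → ℕ} {f : α → ℕ → β} (hn : PT n) (hb : PB n)
    (hf : PT (fun p : α × U => f p.1 p.2.val)) : PT (fun a => (List.range (n a)).map (f a)) :=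
  (PT.map (f := fun a (u : U) => f a u.val) hf (hn.toU hb).rangeU).congr fun a => by
    simp [Function.comp_def]

@[fun_prop] theorem PT.flatMap_range {n : α → ℕ} {f : α → ℕ → List β} (hn : PT n) (hb : PB n)
    (hf : PT (fun p : α × U => f p.1 p.2.val)) : PT (fun a => (List.range (n a)).flatMap (f a)) :=
  (PT.map_range hn hb hf).flatten.congr fun _ => List.flatMap_def ..

theorem PT.iterate {f : α → σ → σ} {init : α → σ} {n : α → ℕ}
    (hf : PT (fun p : α × σ => f p.1 p.2)) (hi : PT init) (hn : PT n) (hnb : PB n)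
    {B : α → ℕ} (hB : PB B) (hb : ∀ a i, i ≤ n a → sz ((f a)^[i] (init a)) ≤ B a) :
    PT (fun a => (f a)^[n a] (init a)) :=
  PT.iterateU hf hi (hn.toU hnb) hB hb

theorem PT.exists_lt {p : α → ℕ → Prop} {n : α → ℕ} (hn : PT n) (hb : PB n)
    (hf : PT (fun x : α × U => p x.1 x.2.val)) : PT (fun a => ∃ i < n a, p a i) :=
  (PT.exists_mem (p := fun a (u : U) => p a u.val) hf (hn.toU hb).rangeU).congr_prop fun a => by
    simp

theorem PT.forall_lt {p : α → ℕ → Prop} {n : α → ℕ} (hn : PT n) (hb : PB n)
    (hf : PT (fun x : α × U => p x.1 x.2.val)) : PT (fun a => ∀ i < n a, p a i) :=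
  (PT.forall_mem (p := fun a (u : U) => p a u.val) hf (hn.toU hb).rangeU).congr_prop fun a => by
    simp

@[fun_prop] theorem PT.pow {f n : α → ℕ} (hf : PT f) (hn : PT n) (hb : PB n) :
    PT (fun a => f a ^ n a) := by
  have key : ∀ (x i : ℕ), (fun s => s * x)^[i] 1 = x ^ i := by
    intro x i
    induction i with
    | zero => rfl
    | succ i ih => rw [Function.iterate_succ_apply', ih, pow_succ]
  have h1 : PT (fun p : α × ℕ => f p.1) := hf.comp (by fun_prop)
  have := PT.iterate (f := fun a s => s * f a) (init := fun _ => 1) (by fun_prop) (PT.const _) hn hb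
    (B := fun a => 4 * (sz (f a) * n a + 1) + 1) (by fun_prop) (fun a i hi => by
      rw [key]
      refine sz_le_of_lt ?_
      calc f a ^ i ≤ (2 ^ sz (f a)) ^ i := Nat.pow_le_pow_left (lt_two_pow_sz _).le _
        _ ≤ (2 ^ sz (f a)) ^ n a := Nat.pow_le_pow_right (by positivity) hi
        _ < 2 ^ (sz (f a) * n a + 1) := by
          rw [← pow_mul]; exact Nat.pow_lt_pow_right (by norm_num) (by omega))
  exact this.congr fun a => (key _ _).symm

@[fun_prop] theorem PT.list_sum {l : α → List ℕ} (hl : PT l) : PT (fun a => (l a).sum) := by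
  have := PT.foldl (f := fun (_ : α) (s b : ℕ) => s + b) (init := fun _ => 0)
    (by fun_prop) (PT.const _) hl (B := fun a => 4 * ((l a).length + sz (l a)) + 1) (by fun_prop)
    (fun a i => by
      rw [← List.sum_eq_foldl]
      refine sz_le_of_lt ?_
      have h1 : ((l a).take i).sum ≤ (l a).length * 2 ^ sz (l a) := by
        refine (List.sum_le_card_nsmul _ (2 ^ sz (l a)) fun x hx => ?_).trans ?_
        · exact (lt_two_pow_sz x).le.trans (Nat.pow_le_pow_right (by norm_num)
            (sz_mem (List.mem_of_mem_take hx)).le)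
        · rw [smul_eq_mul]; gcongr; simp
      rw [pow_add]
      exact h1.trans_lt (Nat.mul_lt_mul_of_pos_right Nat.lt_two_pow_self (by positivity)))
  exact this.congr fun a => List.sum_eq_foldl

@[fun_prop] theorem PT.list_prod {l : α → List ℕ} (hl : PT l) : PT (fun a => (l a).prod) := by
  have := PT.foldl (f := fun (_ : α) (s b : ℕ) => s * b) (init := fun _ => 1)
    (by fun_prop) (PT.const _) hl (B := fun a => 4 * (sz (l a) * (l a).length + 1) + 1) (by fun_prop)
    (fun a i => by
      rw [← List.prod_eq_foldl]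
      refine sz_le_of_lt ?_
      have h1 : ((l a).take i).prod ≤ (2 ^ sz (l a)) ^ (l a).length := by
        refine (List.prod_le_pow_card _ (2 ^ sz (l a)) fun x hx => ?_).trans ?_
        · exact (lt_two_pow_sz x).le.trans (Nat.pow_le_pow_right (by norm_num)
            (sz_mem (List.mem_of_mem_take hx)).le)
        · exact Nat.pow_le_pow_right (by positivity) (by simp)
      rw [← pow_mul] at h1
      exact h1.trans_lt (Nat.pow_lt_pow_right (by norm_num) (by omega)))
  exact this.congr fun a => List.prod_eq_foldl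

/-- one step of Euclid's algorithm -/
def euc (s : ℕ × ℕ) : ℕ × ℕ := if s.1 = 0 then s else (s.2 % s.1, s.1)

theorem euc_gcd (i : ℕ) : ∀ s : ℕ × ℕ, Nat.gcd (euc^[i] s).1 (euc^[i] s).2 = Nat.gcd s.1 s.2 ∧
    (euc^[i] s).1 ≤ max s.1 s.2 ∧ (euc^[i] s).2 ≤ max s.1 s.2 := by
  induction i with
  | zero => intro s; simp
  | succ i ih =>
    intro s
    rw [Function.iterate_succ_apply]
    obtain ⟨h1, h2, h3⟩ := ih (euc s)
    have h4 : Nat.gcd (euc s).1 (euc s).2 = Nat.gcd s.1 s.2 := by
      unfold euc; split_ifs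
      · rfl
      · exact (Nat.gcd_rec _ _).symm
    have h5 : max (euc s).1 (euc s).2 ≤ max s.1 s.2 := by
      unfold euc; split_ifs
      · rfl
      · have := Nat.mod_le s.2 s.1
        dsimp only; omega
    exact ⟨h1.trans h4, h2.trans h5, h3.trans h5⟩

theorem euc_zero (k : ℕ) : ∀ s : ℕ × ℕ, s.1 ≤ s.2 → s.1 * s.2 < 2 ^ k → (euc^[k] s).1 = 0 := by
  induction k with
  | zero =>
    intro s h1 h2
    have : s.1 * s.2 = 0 := by omega
    rcases Nat.mul_eq_zero.1 this with h | h <;> simp <;> omega
  | succ k ih =>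
    intro s h1 h2
    rw [Function.iterate_succ_apply]
    by_cases h : s.1 = 0
    · refine ih _ ?_ ?_ <;> simp [euc, h]
    · have h3 := Nat.mod_lt s.2 (Nat.pos_of_ne_zero h)
      have h4 : 2 * (s.2 % s.1) ≤ s.2 := by
        have h5 := Nat.div_add_mod s.2 s.1
        have h6 : 1 ≤ s.2 / s.1 := Nat.div_pos h1 (Nat.pos_of_ne_zero h)
        have := Nat.mul_le_mul_left s.1 h6
        omega
      refine ih _ ?_ ?_
      · simp [euc, h]; omega
      · simp only [euc, h, if_false]
        have := Nat.mul_le_mul_left s.1 h4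
        rw [pow_succ] at h2
        nlinarith

@[fun_prop] theorem PT.gcd {f g : α → ℕ} (hf : PT f) (hg : PT g) :
    PT (fun a => Nat.gcd (f a) (g a)) := by
  have h0 : PT (fun p : α × ℕ × ℕ => euc p.2) := by
    unfold euc
    exact PT.ite (PT.eq_zero (by fun_prop)) (by fun_prop) (by fun_prop)
  have := PT.iterate (f := fun (_ : α) s => euc s)
    (init := fun a => (Min.min (f a) (g a), Max.max (f a) (g a))) h0 (by fun_prop)
    (n := fun a => (f a).size + (g a).size) (by fun_prop) (by fun_prop)
    (B := fun a => 8 * ((f a).size + (g a).size) + 3) (by fun_prop) (fun a i _ => by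
      obtain ⟨-, h2, h3⟩ := euc_gcd i (Min.min (f a) (g a), Max.max (f a) (g a))
      have h4 : Max.max (f a) (g a) < 2 ^ ((f a).size + (g a).size) :=
        max_lt (Nat.size_le.1 (by omega)) (Nat.size_le.1 (by omega))
      dsimp only at h2 h3
      have h5 := sz_le_of_lt (lt_of_le_of_lt (h2.trans (by omega)) h4)
      have h6 := sz_le_of_lt (lt_of_le_of_lt (h3.trans (by omega)) h4)
      show sz (euc^[i] _) ≤ _
      rw [sz_prod]; omega)
  refine this.snd.congr fun a => ?_
  have h1 := (euc_gcd ((f a).size + (g a).size) (Min.min (f a) (g a), Max.max (f a) (g a))).1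
  rw [euc_zero _ _ (by simp) (by
    dsimp only
    rw [min_mul_max, pow_add]
    exact Nat.mul_lt_mul'' (Nat.lt_size_self _) (Nat.lt_size_self _)), Nat.gcd_zero_left] at h1
  rw [h1]
  rcases le_total (f a) (g a) with h | h
  · simp [h]
  · simp [h, Nat.gcd_comm]

end Crest.Agent.PTime
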