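import Crest.Agent.Lib.PT.List

/-!
# Integers and rationals
-/

set_option autoImplicit false

namespace Crest.Agent.PTime

variable {α β γ σ : Type*} [Enc α] [Enc β] [Enc γ] [Enc σ]

instance : Enc ℤ := ⟨fun z => enc (decide (z < 0), z.natAbs)⟩

instance : EncInj ℤ := ⟨fun a b h => by
  have : (decide (a < 0), a.natAbs) = (decide (b < 0), b.natAbs) := EncInj.inj h
  simp only [Prod.mk.injEq, decide_eq_decide] at this
  omega⟩

theorem sz_int (z : ℤ) : sz z = sz (decide (z < 0)) + sz z.natAbs + 1 := rfl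

theorem sz_int_le {z : ℤ} {k : ℕ} (h : z.natAbs < 2 ^ k) : sz z ≤ 4 * k + 5 := by
  have := sz_le_of_lt h
  have := sz_bool (decide (z < 0))
  rw [sz_int]; omega

theorem natAbs_lt_two_pow_sz (z : ℤ) : z.natAbs < 2 ^ sz z :=
  (lt_two_pow_sz _).trans_le (Nat.pow_le_pow_right (by norm_num) (by rw [sz_int]; omega))

theorem PT.int_parts {f : α → ℤ} (h : PT f) :
    PT (fun a => (Decidable.decide (f a < 0), (f a).natAbs)) := h.of_enc fun _ => rfl

@[fun_prop] theorem PT.natAbs {f : α → ℤ} (h : PT f) : PT (fun a => (f a).natAbs) := h.int_parts.snd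

theorem PT.int_neg' {f : α → ℤ} (h : PT f) : PT (fun a => f a < 0) :=
  h.int_parts.fst.of_decide fun _ => by simp

@[fun_prop] theorem PT.toNat {f : α → ℤ} (h : PT f) : PT (fun a => (f a).toNat) :=
  (h.int_neg'.ite (PT.const 0) h.natAbs).congr fun a => by split_ifs <;> omega

theorem PT.subNatNat {f g : α → ℕ} (hf : PT f) (hg : PT g) :
    PT (fun a => (f a : ℤ) - (g a : ℤ)) :=
  ((hf.lt hg).decide.pair ((hf.sub hg).add (hg.sub hf))).of_enc fun a => by
    show Enc.enc (Decidable.decide (_ < _), Int.natAbs _) = _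
    congr 2
    · simp
    · omega

@[fun_prop] theorem PT.natCast_int {f : α → ℕ} (hf : PT f) : PT (fun a => (f a : ℤ)) :=
  (hf.subNatNat (PT.const 0)).congr fun _ => by simp

@[fun_prop] theorem PT.int_ofNat {f : α → ℕ} (hf : PT f) : PT (fun a => Int.ofNat (f a)) :=
  hf.natCast_int

@[fun_prop] theorem PT.int_neg {f : α → ℤ} (h : PT f) : PT (fun a => - f a) :=
  ((h.natAbs.sub h.toNat).subNatNat h.toNat).congr fun a => by omega

@[fun_prop] theorem PT.int_add {f g : α → ℤ} (hf : PT f) (hg : PT g) : PT (fun a => f a + g a) :=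
  ((hf.toNat.add hg.toNat).subNatNat (hf.int_neg.toNat.add hg.int_neg.toNat)).congr fun a => by
    omega

@[fun_prop] theorem PT.int_sub {f g : α → ℤ} (hf : PT f) (hg : PT g) : PT (fun a => f a - g a) :=
  (hf.int_add hg.int_neg).congr fun _ => sub_eq_add_neg _ _

@[fun_prop] theorem PT.int_lt {f g : α → ℤ} (hf : PT f) (hg : PT g) : PT (fun a => f a < g a) :=
  (hf.int_sub hg).int_neg'.congr_prop fun _ => by omega

@[fun_prop] theorem PT.int_le {f g : α → ℤ} (hf : PT f) (hg : PT g) : PT (fun a => f a ≤ g a) :=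
  (hg.int_lt hf).not.congr_prop fun _ => by omega

@[fun_prop] theorem PT.int_abs {f : α → ℤ} (h : PT f) : PT (fun a => |f a|) :=
  h.natAbs.natCast_int.congr fun _ => Int.abs_eq_natAbs _

@[fun_prop] theorem PT.int_mul {f g : α → ℤ} (hf : PT f) (hg : PT g) : PT (fun a => f a * g a) := by
  have h := (hf.natAbs.mul hg.natAbs).natCast_int
  refine ((hf.int_neg'.iff hg.int_neg').ite h h.int_neg).congr fun a => ?_
  rw [Nat.cast_mul, Int.natCast_natAbs, Int.natCast_natAbs]
  rcases lt_or_ge (f a) 0 with h1 | h1 <;> rcases lt_or_ge (g a) 0 with h2 | h2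
  · simp [h1, h2, abs_of_neg]
  · simp [h1, h2, abs_of_neg, abs_of_nonneg, not_lt.2 h2]
  · simp [h1, h2, abs_of_neg, abs_of_nonneg, not_lt.2 h1]
  · simp [h1, h2, abs_of_nonneg, not_lt.2 h1, not_lt.2 h2]

@[fun_prop] theorem PT.int_min {f g : α → ℤ} (hf : PT f) (hg : PT g) :
    PT (fun a => Min.min (f a) (g a)) :=
  ((hf.int_le hg).ite hf hg).congr fun _ => min_def _ _

@[fun_prop] theorem PT.int_max {f g : α → ℤ} (hf : PT f) (hg : PT g) :
    PT (fun a => Max.max (f a) (g a)) :=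
  ((hf.int_le hg).ite hg hf).congr fun _ => max_def _ _

theorem PT.int_ediv_nat {f : α → ℤ} {g : α → ℕ} (hf : PT f) (hg : PT g) :
    PT (fun a => f a / (g a : ℤ)) := by
  have h1 := (hf.toNat.div hg).natCast_int
  have h2 := ((((hf.int_neg.toNat.sub (PT.const 1)).div hg).add (PT.const 1)).natCast_int).int_neg
  refine (hg.eq_zero.ite (PT.const 0) (hf.int_neg'.ite h2 h1)).congr fun a => ?_
  split_ifs with h0 h
  · simp [h0]
  · obtain ⟨n, hn⟩ := Int.eq_negSucc_of_lt_zero h
    rw [hn, Int.negSucc_ediv _ (by omega)]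
    simp [Int.negSucc_eq]
    rfl
  · obtain ⟨n, hn⟩ := Int.eq_ofNat_of_zero_le (not_lt.1 h)
    rw [hn]; simp

@[fun_prop] theorem PT.int_ediv {f g : α → ℤ} (hf : PT f) (hg : PT g) : PT (fun a => f a / g a) := by
  have h := hf.int_ediv_nat hg.natAbs
  refine (hg.int_neg'.ite h.int_neg h).congr fun a => ?_
  rw [Int.natCast_natAbs]
  split_ifs with h0
  · rw [abs_of_neg h0, Int.ediv_neg, neg_neg]
  · rw [abs_of_nonneg (not_lt.1 h0)]

@[fun_prop] theorem PT.int_emod {f g : α → ℤ} (hf : PT f) (hg : PT g) : PT (fun a => f a % g a) :=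
  (hf.int_sub (hg.int_mul (hf.int_ediv hg))).congr fun _ => Int.emod_def _ _

@[fun_prop] theorem PT.int_dvd {f g : α → ℤ} (hf : PT f) (hg : PT g) : PT (fun a => f a ∣ g a) :=
  (hf.natAbs.dvd hg.natAbs).congr_prop fun _ => Int.natAbs_dvd_natAbs.symm

@[fun_prop] theorem PT.int_gcd {f g : α → ℤ} (hf : PT f) (hg : PT g) :
    PT (fun a => Int.gcd (f a) (g a)) := hf.natAbs.gcd hg.natAbs

@[fun_prop] theorem PT.int_list_sum {l : α → List ℤ} (hl : PT l) : PT (fun a => (l a).sum) :=
  ((PT.map (f := fun _ (z : ℤ) => z.toNat) (by fun_prop) hl).list_sum.subNatNat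
    (PT.map (f := fun _ (z : ℤ) => (-z).toNat) (by fun_prop) hl).list_sum).congr fun a => by
    induction l a with
    | nil => simp
    | cons z t ih => simp only [List.sum_cons, List.map_cons]; omega

@[fun_prop] theorem PT.int_list_prod {l : α → List ℤ} (hl : PT l) : PT (fun a => (l a).prod) := by
  have := PT.foldl (f := fun (_ : α) (s b : ℤ) => s * b) (init := fun _ => 1)
    (by fun_prop) (PT.const _) hl
    (B := fun a => 4 * (PTime.sz (l a) * (l a).length + 1) + 5) (by fun_prop)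
    (fun a i => by
      rw [← List.prod_eq_foldl]
      refine sz_int_le ?_
      have h0 : ((l a).take i).prod.natAbs = (((l a).take i).map Int.natAbs).prod := by
        induction (l a).take i with
        | nil => simp
        | cons z t ih => simp [Int.natAbs_mul, ih]
      have h1 : (((l a).take i).map Int.natAbs).prod ≤ (2 ^ PTime.sz (l a)) ^ (l a).length := by
        refine (List.prod_le_pow_card _ (2 ^ PTime.sz (l a)) fun x hx => ?_).trans ?_
        · obtain ⟨z, hz, rfl⟩ := List.mem_map.1 hx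
          exact (natAbs_lt_two_pow_sz z).le.trans (Nat.pow_le_pow_right (by norm_num)
            (sz_mem (List.mem_of_mem_take hz)).le)
        · exact Nat.pow_le_pow_right (by positivity) (by simp)
      rw [← pow_mul] at h1
      rw [h0]
      exact h1.trans_lt (Nat.pow_lt_pow_right (by norm_num) (by omega)))
  exact this.congr fun a => List.prod_eq_foldl

instance : PTSum ℤ := ⟨PT.id.int_list_sum⟩
instance : PTProd ℤ := ⟨PT.id.int_list_prod⟩

theorem PT.pow_of_prod [CommMonoid β] [PTProd β] {f : α → β} {n : α → ℕ} (hf : PT f) (hn : PT n)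
    (hb : PB n) : PT (fun a => f a ^ n a) :=
  (PTProd.prod.comp (PT.replicate hn hb hf)).congr fun _ => by simp

@[fun_prop] theorem PT.int_pow {f : α → ℤ} {n : α → ℕ} (hf : PT f) (hn : PT n) (hb : PB n) :
    PT (fun a => f a ^ n a) := hf.pow_of_prod hn hb

/-! ## rationals -/

instance : Enc ℚ := ⟨fun q => enc (q.num, q.den)⟩

instance : EncInj ℚ := ⟨fun a b h => by
  have : (a.num, a.den) = (b.num, b.den) := EncInj.inj h
  simp only [Prod.mk.injEq] at this
  exact Rat.ext this.1 this.2⟩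

theorem sz_rat (q : ℚ) : sz q = sz q.num + sz q.den + 1 := rfl

@[fun_prop] theorem PT.num {f : α → ℚ} (h : PT f) : PT (fun a => (f a).num) :=
  (h.of_enc (f := fun a => ((f a).num, (f a).den)) fun _ => rfl).fst

@[fun_prop] theorem PT.den {f : α → ℚ} (h : PT f) : PT (fun a => (f a).den) :=
  (h.of_enc (f := fun a => ((f a).num, (f a).den)) fun _ => rfl).snd

@[fun_prop] theorem PT.mkRat {f : α → ℤ} {g : α → ℕ} (hf : PT f) (hg : PT g) :
    PT (fun a => mkRat (f a) (g a)) := by
  have h := hg.gcd hf.natAbs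
  refine ((hg.eq_zero.ite (PT.const 0) (hf.int_ediv_nat h)).pair
    (hg.eq_zero.ite (PT.const 1) (hg.div h))).of_enc fun a => ?_
  show Enc.enc (Rat.num _, Rat.den _) = _
  rw [Rat.num_mkRat, Rat.den_mkRat]

@[fun_prop] theorem PT.intCast_rat {f : α → ℤ} (hf : PT f) : PT (fun a => (f a : ℚ)) :=
  (hf.pair (PT.const (1 : ℕ))).of_enc fun _ => rfl

@[fun_prop] theorem PT.natCast_rat {f : α → ℕ} (hf : PT f) : PT (fun a => (f a : ℚ)) :=
  hf.natCast_int.intCast_rat.congr fun _ => by simp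

@[fun_prop] theorem PT.rat_add {f g : α → ℚ} (hf : PT f) (hg : PT g) : PT (fun a => f a + g a) :=
  PT.congr (by fun_prop) fun _ => Rat.add_def' _ _

@[fun_prop] theorem PT.rat_mul {f g : α → ℚ} (hf : PT f) (hg : PT g) : PT (fun a => f a * g a) :=
  PT.congr (by fun_prop) fun _ => Rat.mul_def' _ _

@[fun_prop] theorem PT.rat_neg {f : α → ℚ} (hf : PT f) : PT (fun a => - f a) :=
  (hf.num.int_neg.pair hf.den).of_enc fun _ => rfl

@[fun_prop] theorem PT.rat_sub {f g : α → ℚ} (hf : PT f) (hg : PT g) : PT (fun a => f a - g a) :=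
  (hf.rat_add hg.rat_neg).congr fun _ => sub_eq_add_neg _ _

@[fun_prop] theorem PT.int_sign {f : α → ℤ} (hf : PT f) : PT (fun a => (f a).sign) :=
  (hf.int_neg'.ite (PT.const (-1)) ((hf.eq (PT.const 0)).ite (PT.const 0) (PT.const 1))).congr
    fun a => by
      split_ifs with h1 h2
      · exact Int.sign_eq_neg_one_of_neg h1
      · simp [h2]
      · exact Int.sign_eq_one_of_pos (by omega)

@[fun_prop] theorem PT.rat_inv {f : α → ℚ} (hf : PT f) : PT (fun a => (f a)⁻¹) := by
  refine ((hf.num.int_sign.int_mul hf.den.natCast_int).pair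
    ((hf.num.eq (PT.const 0)).ite (PT.const 1) hf.num.natAbs)).of_enc fun a => ?_
  show Enc.enc (Rat.num _, Rat.den _) = _
  rw [Rat.num_inv, Rat.den_inv]

@[fun_prop] theorem PT.rat_div {f g : α → ℚ} (hf : PT f) (hg : PT g) : PT (fun a => f a / g a) :=
  (hf.rat_mul hg.rat_inv).congr fun _ => div_eq_mul_inv _ _

@[fun_prop] theorem PT.rat_lt {f g : α → ℚ} (hf : PT f) (hg : PT g) : PT (fun a => f a < g a) :=
  (hf.rat_sub hg).num.int_neg'.congr_prop fun _ => by rw [Rat.num_neg, sub_neg]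

@[fun_prop] theorem PT.rat_le {f g : α → ℚ} (hf : PT f) (hg : PT g) : PT (fun a => f a ≤ g a) :=
  (hg.rat_lt hf).not.congr_prop fun _ => not_lt.symm

@[fun_prop] theorem PT.rat_min {f g : α → ℚ} (hf : PT f) (hg : PT g) :
    PT (fun a => Min.min (f a) (g a)) :=
  ((hf.rat_le hg).ite hf hg).congr fun _ => min_def _ _

@[fun_prop] theorem PT.rat_max {f g : α → ℚ} (hf : PT f) (hg : PT g) :
    PT (fun a => Max.max (f a) (g a)) :=
  ((hf.rat_le hg).ite hg hf).congr fun _ => max_def _ _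

@[fun_prop] theorem PT.rat_abs {f : α → ℚ} (hf : PT f) : PT (fun a => |f a|) :=
  (hf.rat_max hf.rat_neg).congr fun _ => abs_eq_max_neg

@[fun_prop] theorem PT.floor {f : α → ℚ} (hf : PT f) : PT (fun a => ⌊f a⌋) :=
  (hf.num.int_ediv_nat hf.den).congr fun _ => Rat.floor_def'

@[fun_prop] theorem PT.ceil {f : α → ℚ} (hf : PT f) : PT (fun a => ⌈f a⌉) :=
  hf.rat_neg.floor.int_neg.congr fun _ => by rw [Int.floor_neg, neg_neg]

/-- `q` has numerator and denominator at most `2 ^ k` -/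
def Ht (q : ℚ) (k : ℕ) : Prop := q.num.natAbs ≤ 2 ^ k ∧ q.den ≤ 2 ^ k

theorem Ht.mono {q : ℚ} {k m : ℕ} (h : Ht q k) (hk : k ≤ m) : Ht q m :=
  ⟨h.1.trans (Nat.pow_le_pow_right (by norm_num) hk), h.2.trans (Nat.pow_le_pow_right (by norm_num) hk)⟩

theorem ht_sz (q : ℚ) : Ht q (sz q) :=
  ⟨(natAbs_lt_two_pow_sz _).le.trans (Nat.pow_le_pow_right (by norm_num) (by rw [sz_rat]; omega)),
    (lt_two_pow_sz _).le.trans (Nat.pow_le_pow_right (by norm_num) (by rw [sz_rat]; omega))⟩

theorem Ht.sz_le {q : ℚ} {k : ℕ} (h : Ht q k) : sz q ≤ 8 * k + 15 := by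
  have h0 : 2 ^ k < 2 ^ (k + 1) := Nat.pow_lt_pow_right (by norm_num) (by omega)
  have h1 := sz_int_le (h.1.trans_lt h0)
  have h2 := sz_le_of_lt (h.2.trans_lt h0)
  rw [sz_rat]; omega

theorem ht_mkRat {n : ℤ} {d k : ℕ} (h1 : n.natAbs ≤ 2 ^ k) (h2 : d ≤ 2 ^ k) : Ht (mkRat n d) k := by
  unfold Ht
  rw [Rat.num_mkRat, Rat.den_mkRat]
  split_ifs with h
  · exact ⟨by simp, Nat.one_le_two_pow⟩
  · refine ⟨le_trans ?_ h1, (Nat.div_le_self _ _).trans h2⟩
    rw [Int.natAbs_ediv_of_dvd (Int.natCast_dvd.2 (Nat.gcd_dvd_right _ _))]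
    exact Nat.div_le_self _ _

theorem Ht.mul {p q : ℚ} {k m : ℕ} (hp : Ht p k) (hq : Ht q m) : Ht (p * q) (k + m) := by
  rw [Rat.mul_def']
  refine ht_mkRat ?_ ?_
  · rw [Int.natAbs_mul, pow_add]; exact Nat.mul_le_mul hp.1 hq.1
  · rw [pow_add]; exact Nat.mul_le_mul hp.2 hq.2

theorem Ht.add {p q : ℚ} {k m : ℕ} (hp : Ht p k) (hq : Ht q m) : Ht (p + q) (k + m + 1) := by
  rw [Rat.add_def']
  refine ht_mkRat ?_ ?_
  · refine (Int.natAbs_add_le _ _).trans ?_
    rw [Int.natAbs_mul, Int.natAbs_mul, pow_succ, pow_add, Int.natAbs_natCast, Int.natAbs_natCast]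
    have h1 := Nat.mul_le_mul hp.1 hq.2
    have h2 := Nat.mul_le_mul hq.1 hp.2
    rw [mul_comm (2 ^ m)] at h2
    omega
  · rw [pow_succ, pow_add]
    have := Nat.mul_le_mul hp.2 hq.2
    omega

theorem ht_list_sum {l : List ℚ} {k : ℕ} (h : ∀ q ∈ l, Ht q k) : Ht l.sum (l.length * (k + 1)) := by
  induction l with
  | nil => exact ⟨by simp, by simp⟩
  | cons q l ih =>
    rw [List.sum_cons]
    refine ((h q List.mem_cons_self).add (ih fun p hp => h p (List.mem_cons_of_mem _ hp))).mono ?_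
    simp [add_mul]; omega

theorem ht_list_prod {l : List ℚ} {k : ℕ} (h : ∀ q ∈ l, Ht q k) : Ht l.prod (l.length * k) := by
  induction l with
  | nil => exact ⟨by simp, by simp⟩
  | cons q l ih =>
    rw [List.prod_cons]
    refine ((h q List.mem_cons_self).mul (ih fun p hp => h p (List.mem_cons_of_mem _ hp))).mono ?_
    simp [add_mul]; omega

@[fun_prop] theorem PT.rat_list_sum {l : α → List ℚ} (hl : PT l) : PT (fun a => (l a).sum) := by
  have := PT.foldl (f := fun (_ : α) (s b : ℚ) => s + b) (init := fun _ => 0)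
    (by fun_prop) (PT.const _) hl
    (B := fun a => 8 * ((l a).length * (PTime.sz (l a) + 1)) + 15) (by fun_prop)
    (fun a i => by
      rw [← List.sum_eq_foldl]
      refine ((ht_list_sum (k := PTime.sz (l a)) fun q hq =>
        (ht_sz q).mono (sz_mem (List.mem_of_mem_take hq)).le).mono ?_).sz_le
      gcongr; simp)
  exact this.congr fun a => List.sum_eq_foldl

@[fun_prop] theorem PT.rat_list_prod {l : α → List ℚ} (hl : PT l) : PT (fun a => (l a).prod) := by
  have := PT.foldl (f := fun (_ : α) (s b : ℚ) => s * b) (init := fun _ => 1)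
    (by fun_prop) (PT.const _) hl
    (B := fun a => 8 * ((l a).length * PTime.sz (l a)) + 15) (by fun_prop)
    (fun a i => by
      rw [← List.prod_eq_foldl]
      refine ((ht_list_prod (k := PTime.sz (l a)) fun q hq =>
        (ht_sz q).mono (sz_mem (List.mem_of_mem_take hq)).le).mono ?_).sz_le
      gcongr; simp)
  exact this.congr fun a => List.prod_eq_foldl

instance : PTSum ℚ := ⟨PT.id.rat_list_sum⟩
instance : PTProd ℚ := ⟨PT.id.rat_list_prod⟩

@[fun_prop] theorem PT.rat_pow {f : α → ℚ} {n : α → ℕ} (hf : PT f) (hn : PT n) (hb : PB n) :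
    PT (fun a => f a ^ n a) := hf.pow_of_prod hn hb

end Crest.Agent.PTime
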