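import Crest.Agent.Lib.PT.Machine

/-!
# Trees, the predicate `PT` and its core closure properties
-/

set_option autoImplicit false

namespace Crest.Agent.PTime

/-- binary trees: the universal data type -/
inductive T
  | leaf
  | node (l r : T)
  deriving DecidableEq, Inhabited

/-- prefix code of a tree -/
def T.bits : T → List Bool
  | .leaf => [false]
  | .node l r => true :: (l.bits ++ r.bits)

/-- size of a tree = length of its code -/
def T.size : T → ℕ
  | .leaf => 1
  | .node l r => l.size + r.size + 1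

@[simp] theorem T.length_bits : (t : T) → t.bits.length = t.size
  | .leaf => rfl
  | .node l r => by simp [T.bits, T.size, T.length_bits l, T.length_bits r]

theorem T.size_pos : (t : T) → 0 < t.size
  | .leaf => by simp [T.size]
  | .node _ _ => by simp [T.size]

def T.left : T → T | .leaf => .leaf | .node l _ => l
def T.right : T → T | .leaf => .leaf | .node _ r => r
def T.isNode : T → Bool | .leaf => false | .node _ _ => true

/-- evaluation within a time bound -/
def EvLe (p : P) (x y : St) (n : ℕ) : Prop := ∃ m ≤ n, Ev p x y m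

theorem EvLe.mono {p x y m n} (h : EvLe p x y m) (hmn : m ≤ n) : EvLe p x y n := by
  obtain ⟨k, hk, h⟩ := h; exact ⟨k, hk.trans hmn, h⟩

theorem EvLe.seq {p q x y z m n} (h : EvLe p x y m) (h' : EvLe q y z n) :
    EvLe (.seq p q) x z (m + n) := by
  obtain ⟨k, hk, h⟩ := h; obtain ⟨k', hk', h'⟩ := h'
  exact ⟨k + k', by omega, h.seq h'⟩

theorem EvLe.skip (x : St) : EvLe .skip x x 1 := ⟨1, le_rfl, .skip x⟩

theorem EvLe.push (k : K) (b : Bool) (x : St) : EvLe (.push k b) x (x.set k (b :: x.get k)) 1 :=
  ⟨1, le_rfl, .push k b x⟩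

theorem EvLe.caseF {k pn pf pt x y n r} (h : x.get k = false :: r) (h' : EvLe pf (x.set k r) y n) :
    EvLe (.case k pn pf pt) x y (n + 1) := by
  obtain ⟨m, hm, h'⟩ := h'; exact ⟨m + 1, by omega, .caseF h h'⟩

theorem EvLe.caseT {k pn pf pt x y n r} (h : x.get k = true :: r) (h' : EvLe pt (x.set k r) y n) :
    EvLe (.case k pn pf pt) x y (n + 1) := by
  obtain ⟨m, hm, h'⟩ := h'; exact ⟨m + 1, by omega, .caseT h h'⟩

theorem EvLe.loopN {k pf pt x} (h : x.get k = []) : EvLe (.loop k pf pt) x x 1 :=
  ⟨1, le_rfl, .loopN h⟩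

theorem EvLe.loopF {k pf pt x y z m n r} (h : x.get k = false :: r)
    (h' : EvLe pf (x.set k r) y m) (h'' : EvLe (.loop k pf pt) y z n) :
    EvLe (.loop k pf pt) x z (m + n + 1) := by
  obtain ⟨m', hm, h'⟩ := h'; obtain ⟨n', hn, h''⟩ := h''
  exact ⟨m' + n' + 1, by omega, .loopF h h' h''⟩

theorem EvLe.loopT {k pf pt x y z m n r} (h : x.get k = true :: r)
    (h' : EvLe pt (x.set k r) y m) (h'' : EvLe (.loop k pf pt) y z n) :
    EvLe (.loop k pf pt) x z (m + n + 1) := by
  obtain ⟨m', hm, h'⟩ := h'; obtain ⟨n', hn, h''⟩ := h''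
  exact ⟨m' + n' + 1, by omega, .loopT h h' h''⟩

/-- pop one bit -/
def pop1 (k : K) : P := .case k .skip .skip .skip

theorem ev_pop1 (b : Bool) (r a b' c : List Bool) :
    EvLe (pop1 .s) ⟨b :: r, a, b', c⟩ ⟨r, a, b', c⟩ 2 := by
  cases b
  · exact EvLe.caseF (r := r) rfl (EvLe.skip _)
  · exact EvLe.caseT (r := r) rfl (EvLe.skip _)

/-- loop of the scan moving one tree to stack `a` -/
def scanA : P := .loop .c .skip (.case .s .skip (.push .a false)
  (.seq (.push .a true) (.seq (.push .c true) (.push .c true))))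

def scanB : P := .loop .c .skip (.case .s .skip (.push .b false)
  (.seq (.push .b true) (.seq (.push .c true) (.push .c true))))

theorem ev_scanA (t : T) : ∀ (r a b c : List Bool) (z : St) (n : ℕ),
    EvLe scanA ⟨r, t.bits.reverse ++ a, b, c⟩ z n →
    EvLe scanA ⟨t.bits ++ r, a, b, true :: c⟩ z (n + 5 * t.size) := by
  induction t with
  | leaf =>
    intro r a b c z n h
    refine EvLe.mono (EvLe.loopT (r := c) rfl (EvLe.caseF (r := r) rfl (EvLe.push _ _ _)) h) ?_
    simp [T.size]; omega
  | node l r' ihl ihr =>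
    intro r a b c z n h
    have h1 := ihr r (l.bits.reverse ++ true :: a) b c z n (by simpa [T.bits] using h)
    have h2 := ihl (r'.bits ++ r) (true :: a) b (true :: c) z _ h1
    refine EvLe.mono (EvLe.loopT (r := c) rfl (EvLe.caseT (r := l.bits ++ (r'.bits ++ r))
      (by simp [T.bits, St.get, St.set])
      ((EvLe.push _ _ _).seq ((EvLe.push _ _ _).seq (EvLe.push _ _ _)))) h2) ?_
    simp [T.size]; omega

theorem ev_scanB (t : T) : ∀ (r a b c : List Bool) (z : St) (n : ℕ),
    EvLe scanB ⟨r, a, t.bits.reverse ++ b, c⟩ z n →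
    EvLe scanB ⟨t.bits ++ r, a, b, true :: c⟩ z (n + 5 * t.size) := by
  induction t with
  | leaf =>
    intro r a b c z n h
    refine EvLe.mono (EvLe.loopT (r := c) rfl (EvLe.caseF (r := r) rfl (EvLe.push _ _ _)) h) ?_
    simp [T.size]; omega
  | node l r' ihl ihr =>
    intro r a b c z n h
    have h1 := ihr r a (l.bits.reverse ++ true :: b) c z n (by simpa [T.bits] using h)
    have h2 := ihl (r'.bits ++ r) a (true :: b) (true :: c) z _ h1
    refine EvLe.mono (EvLe.loopT (r := c) rfl (EvLe.caseT (r := l.bits ++ (r'.bits ++ r))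
      (by simp [T.bits, St.get, St.set])
      ((EvLe.push _ _ _).seq ((EvLe.push _ _ _).seq (EvLe.push _ _ _)))) h2) ?_
    simp [T.size]; omega

def mvA : P := .seq (.push .c true) scanA
def mvB : P := .seq (.push .c true) scanB

theorem ev_mvA (t : T) (r a b : List Bool) :
    EvLe mvA ⟨t.bits ++ r, a, b, []⟩ ⟨r, t.bits.reverse ++ a, b, []⟩ (5 * t.size + 2) :=
  EvLe.mono ((EvLe.push _ _ _).seq (ev_scanA t r a b [] _ _ (EvLe.loopN rfl))) (by omega)

theorem ev_mvB (t : T) (r a b : List Bool) :
    EvLe mvB ⟨t.bits ++ r, a, b, []⟩ ⟨r, a, t.bits.reverse ++ b, []⟩ (5 * t.size + 2) :=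
  EvLe.mono ((EvLe.push _ _ _).seq (ev_scanB t r a b [] _ _ (EvLe.loopN rfl))) (by omega)

def aToS : P := .loop .a (.push .s false) (.push .s true)
def bToS : P := .loop .b (.push .s false) (.push .s true)
def bToA : P := .loop .b (.push .a false) (.push .a true)
def aToSB : P := .loop .a (.seq (.push .s false) (.push .b false)) (.seq (.push .s true) (.push .b true))
def clrA : P := .loop .a .skip .skip

theorem ev_aToS (a : List Bool) : ∀ (s b c : List Bool),
    EvLe aToS ⟨s, a, b, c⟩ ⟨a.reverse ++ s, [], b, c⟩ (2 * a.length + 1) := by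
  induction a with
  | nil => intro s b c; exact EvLe.loopN rfl
  | cons x a ih =>
    intro s b c
    have := ih (x :: s) b c
    rw [List.reverse_cons, List.append_assoc]
    cases x
    · exact EvLe.mono (EvLe.loopF (r := a) rfl (EvLe.push _ _ _) this) (by simp; omega)
    · exact EvLe.mono (EvLe.loopT (r := a) rfl (EvLe.push _ _ _) this) (by simp; omega)

theorem ev_bToS (b : List Bool) : ∀ (s a c : List Bool),
    EvLe bToS ⟨s, a, b, c⟩ ⟨b.reverse ++ s, a, [], c⟩ (2 * b.length + 1) := by
  induction b with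
  | nil => intro s b c; exact EvLe.loopN rfl
  | cons x b ih =>
    intro s a c
    have := ih (x :: s) a c
    rw [List.reverse_cons, List.append_assoc]
    cases x
    · exact EvLe.mono (EvLe.loopF (r := b) rfl (EvLe.push _ _ _) this) (by simp; omega)
    · exact EvLe.mono (EvLe.loopT (r := b) rfl (EvLe.push _ _ _) this) (by simp; omega)

theorem ev_bToA (b : List Bool) : ∀ (s a c : List Bool),
    EvLe bToA ⟨s, a, b, c⟩ ⟨s, b.reverse ++ a, [], c⟩ (2 * b.length + 1) := by
  induction b with
  | nil => intro s b c; exact EvLe.loopN rfl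
  | cons x b ih =>
    intro s a c
    have := ih s (x :: a) c
    rw [List.reverse_cons, List.append_assoc]
    cases x
    · exact EvLe.mono (EvLe.loopF (r := b) rfl (EvLe.push _ _ _) this) (by simp; omega)
    · exact EvLe.mono (EvLe.loopT (r := b) rfl (EvLe.push _ _ _) this) (by simp; omega)

theorem ev_aToSB (a : List Bool) : ∀ (s b c : List Bool),
    EvLe aToSB ⟨s, a, b, c⟩ ⟨a.reverse ++ s, [], a.reverse ++ b, c⟩ (3 * a.length + 1) := by
  induction a with
  | nil => intro s b c; exact EvLe.loopN rfl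
  | cons x a ih =>
    intro s b c
    have := ih (x :: s) (x :: b) c
    rw [List.reverse_cons, List.append_assoc, List.append_assoc]
    cases x
    · exact EvLe.mono (EvLe.loopF (r := a) rfl ((EvLe.push _ _ _).seq (EvLe.push _ _ _)) this)
        (by simp; omega)
    · exact EvLe.mono (EvLe.loopT (r := a) rfl ((EvLe.push _ _ _).seq (EvLe.push _ _ _)) this)
        (by simp; omega)

theorem ev_clrA (a : List Bool) : ∀ (s b c : List Bool),
    EvLe clrA ⟨s, a, b, c⟩ ⟨s, [], b, c⟩ (2 * a.length + 1) := by
  induction a with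
  | nil => intro s b c; exact EvLe.loopN rfl
  | cons x a ih =>
    intro s b c
    have := ih s b c
    cases x
    · exact EvLe.mono (EvLe.loopF (r := a) rfl (EvLe.skip _) this) (by simp; omega)
    · exact EvLe.mono (EvLe.loopT (r := a) rfl (EvLe.skip _) this) (by simp; omega)

/-- the state with main stack `s` and empty auxiliary stacks -/
abbrev mk (s : List Bool) : St := ⟨s, [], [], []⟩

def pDrop : P := .seq mvA clrA
def pDup : P := .seq mvA (.seq aToSB (.seq bToA aToS))
def pSwap : P := .seq mvA (.seq mvB (.seq aToS bToS))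

theorem ev_drop (t : T) (r : List Bool) : EvLe pDrop (mk (t.bits ++ r)) (mk r) (7 * t.size + 3) :=
  EvLe.mono ((ev_mvA t r [] []).seq (ev_clrA _ _ _ _)) (by simp; omega)

theorem ev_dup (t : T) (r : List Bool) :
    EvLe pDup (mk (t.bits ++ r)) (mk (t.bits ++ (t.bits ++ r))) (12 * t.size + 5) := by
  have := (ev_mvA t r [] []).seq ((ev_aToSB _ _ _ _).seq ((ev_bToA _ _ _ _).seq (ev_aToS _ _ _ _)))
  simp only [List.append_nil, List.reverse_reverse] at this
  exact this.mono (by simp; omega)

theorem ev_swap (t u : T) (r : List Bool) :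
    EvLe pSwap (mk (t.bits ++ (u.bits ++ r))) (mk (u.bits ++ (t.bits ++ r)))
      (7 * t.size + 7 * u.size + 6) := by
  have := (ev_mvA t (u.bits ++ r) [] []).seq ((ev_mvB u r _ []).seq
    ((ev_aToS _ _ _ _).seq (ev_bToS _ _ _ _)))
  simp only [List.append_nil, List.reverse_reverse] at this
  exact this.mono (by simp; omega)

/-- program `p` turns tree `x` into tree `y` on top of the main stack -/
def Cmp (p : P) (x y : T) (n : ℕ) : Prop :=
  ∀ r : List Bool, EvLe p (mk (x.bits ++ r)) (mk (y.bits ++ r)) n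

theorem Cmp.size_le {p x y n} (h : Cmp p x y n) : y.size ≤ x.size + n := by
  obtain ⟨m, hm, h⟩ := h []
  have := h.len_le
  simp [St.len] at this; omega

theorem Cmp.mono {p x y m n} (h : Cmp p x y m) (hmn : m ≤ n) : Cmp p x y n :=
  fun r => (h r).mono hmn

/-- encodings of data as trees -/
class Enc (α : Type*) where
  enc : α → T

export Enc (enc)

/-- the size of an encoded object -/
def sz {α : Type*} [Enc α] (a : α) : ℕ := (enc a).size

theorem sz_pos {α : Type*} [Enc α] (a : α) : 0 < sz a := T.size_pos _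

/-- Polynomial-time computable functions between encoded types. -/
@[fun_prop]
def PT {α β : Type*} [Enc α] [Enc β] (f : α → β) : Prop :=
  ∃ (p : P) (q : Polynomial ℕ), ∀ a, Cmp p (enc a) (enc (f a)) (q.eval (sz a))

/-- Functions whose VALUE is bounded by a polynomial in the size of the argument. -/
@[fun_prop]
def PB {α : Type*} [Enc α] (g : α → ℕ) : Prop :=
  ∃ q : Polynomial ℕ, ∀ a, g a ≤ q.eval (sz a)

theorem eval_mono (q : Polynomial ℕ) {m n : ℕ} (h : m ≤ n) : q.eval m ≤ q.eval n := by
  induction q using Polynomial.induction_on' with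
  | add p q hp hq => simp; omega
  | monomial k c => simp; gcongr

instance : Enc T := ⟨id⟩
instance : Enc Unit := ⟨fun _ => .leaf⟩
instance : Enc Bool := ⟨fun b => match b with | false => .leaf | true => .node .leaf .leaf⟩
instance {α β : Type*} [Enc α] [Enc β] : Enc (α × β) := ⟨fun p => .node (enc p.1) (enc p.2)⟩

/-- lists as right combs -/
def encList {α : Type*} [Enc α] : List α → T
  | [] => .leaf
  | a :: l => .node (enc a) (encList l)

instance {α : Type*} [Enc α] : Enc (List α) := ⟨encList⟩

section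
variable {α β γ : Type*} [Enc α] [Enc β] [Enc γ]

@[simp] theorem enc_T (t : T) : enc t = t := rfl
@[simp] theorem enc_false : enc false = T.leaf := rfl
@[simp] theorem enc_true : enc true = T.node .leaf .leaf := rfl
@[simp] theorem enc_pair (a : α) (b : β) : enc (a, b) = T.node (enc a) (enc b) := rfl
theorem enc_prod (p : α × β) : enc p = T.node (enc p.1) (enc p.2) := rfl
@[simp] theorem enc_nil : enc ([] : List α) = T.leaf := rfl
@[simp] theorem enc_cons (a : α) (l : List α) : enc (a :: l) = T.node (enc a) (enc l) := rfl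
@[simp] theorem sz_T (t : T) : sz t = t.size := rfl
@[simp] theorem sz_unit (u : Unit) : sz u = 1 := rfl
@[simp] theorem sz_pair (a : α) (b : β) : sz (a, b) = sz a + sz b + 1 := rfl
theorem sz_prod (p : α × β) : sz p = sz p.1 + sz p.2 + 1 := rfl
@[simp] theorem sz_nil : sz ([] : List α) = 1 := rfl
@[simp] theorem sz_cons (a : α) (l : List α) : sz (a :: l) = sz a + sz l + 1 := rfl
theorem sz_bool (b : Bool) : sz b ≤ 3 := by cases b <;> simp [sz, T.size]

theorem PT.of_enc {f : α → β} {g : α → γ} (hg : PT g) (h : ∀ a, enc (f a) = enc (g a)) : PT f := by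
  obtain ⟨p, q, hp⟩ := hg
  exact ⟨p, q, fun a => by rw [h]; exact hp a⟩

theorem PT.congr {f g : α → β} (hg : PT g) (h : ∀ a, f a = g a) : PT f :=
  hg.of_enc fun a => by rw [h]

@[fun_prop] theorem PT.id : PT (fun a : α => a) :=
  ⟨.skip, 1, fun a r => by simpa using EvLe.skip _⟩

@[fun_prop] theorem PT.enc : PT (fun a : α => enc a) := PT.id.of_enc fun _ => rfl

/-- the size of the value of a polynomial-time function is polynomially bounded -/
theorem PT.pb_sz {f : α → β} (h : PT f) : PB (fun a => sz (f a)) := by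
  obtain ⟨p, q, hp⟩ := h
  exact ⟨Polynomial.X + q, fun a => by simpa [sz] using (hp a).size_le⟩

@[fun_prop] theorem PT.comp {f : β → γ} {g : α → β} (hf : PT f) (hg : PT g) :
    PT (fun a => f (g a)) := by
  obtain ⟨s, hs⟩ := hg.pb_sz
  obtain ⟨p, q, hp⟩ := hg
  obtain ⟨p', q', hp'⟩ := hf
  refine ⟨.seq p p', q + q'.comp s, fun a r => EvLe.mono ((hp a r).seq (hp' (g a) r)) ?_⟩
  have := eval_mono q' (hs a)
  simp; omega

/-- push a fixed list of bits -/
def pushBits : List Bool → P
  | [] => .skip
  | b :: l => .seq (pushBits l) (.push .s b)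

theorem ev_pushBits (l : List Bool) (r : List Bool) :
    EvLe (pushBits l) (mk r) (mk (l ++ r)) (l.length + 1) := by
  induction l with
  | nil => exact EvLe.skip _
  | cons b l ih => exact ih.seq (EvLe.push _ _ _)

@[fun_prop] theorem PT.const (b : β) : PT (fun _ : α => b) :=
  ⟨.seq pDrop (pushBits (Enc.enc b).bits), 7 * Polynomial.X + 3 + Polynomial.C (sz b + 1),
    fun a r => EvLe.mono ((ev_drop _ _).seq (ev_pushBits _ _)) (by simp [sz])⟩

@[fun_prop] theorem PT.pair {f : α → β} {g : α → γ} (hf : PT f) (hg : PT g) :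
    PT (fun a => (f a, g a)) := by
  obtain ⟨s, hs⟩ := hg.pb_sz
  obtain ⟨p, q, hp⟩ := hg
  obtain ⟨p', q', hp'⟩ := hf
  refine ⟨.seq pDup (.seq p (.seq pSwap (.seq p' (.push .s true)))),
    12 * Polynomial.X + 5 + q + (7 * s + 7 * Polynomial.X + 6) + q' + 1, fun a r => ?_⟩
  have := (ev_dup (Enc.enc a) r).seq ((hp a _).seq ((ev_swap _ _ r).seq ((hp' a _).seq
    (EvLe.push .s true _))))
  have h2 := hs a
  refine EvLe.mono (by simpa [T.bits, St.set, St.get] using this) ?_
  simp [sz] at h2 ⊢; omega

theorem PT.left : PT T.left := by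
  refine ⟨.case .s .skip (.push .s false) (.seq pSwap pDrop), 21 * Polynomial.X + 10, fun t r => ?_⟩
  cases t with
  | leaf => exact EvLe.mono (EvLe.caseF (r := r) rfl (EvLe.push _ _ _)) (by simp)
  | node l u =>
    refine EvLe.mono (EvLe.caseT (r := l.bits ++ (u.bits ++ r)) (by simp [T.bits, St.get])
      ((ev_swap l u r).seq (ev_drop u _))) ?_
    simp [T.size]; omega

theorem PT.right : PT T.right := by
  refine ⟨.case .s .skip (.push .s false) pDrop, 7 * Polynomial.X + 4, fun t r => ?_⟩
  cases t with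
  | leaf => exact EvLe.mono (EvLe.caseF (r := r) rfl (EvLe.push _ _ _)) (by simp)
  | node l u =>
    refine EvLe.mono (EvLe.caseT (r := l.bits ++ (u.bits ++ r)) (by simp [T.bits, St.get])
      (ev_drop l _)) ?_
    simp [T.size]; omega

theorem PT.isNode : PT T.isNode := by
  refine ⟨.case .s .skip (.push .s false) (.seq pDrop (.seq pDrop (pushBits [true, false, false]))),
    7 * Polynomial.X + 11, fun t r => ?_⟩
  cases t with
  | leaf => exact EvLe.mono (EvLe.caseF (r := r) rfl (EvLe.push _ _ _)) (by simp)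
  | node l u =>
    refine EvLe.mono (EvLe.caseT (r := l.bits ++ (u.bits ++ r)) (by simp [T.bits, St.get])
      ((ev_drop l _).seq ((ev_drop u _).seq (ev_pushBits _ _)))) ?_
    simp [T.size]; omega

@[fun_prop] theorem PT.cond {c : α → Bool} {f g : α → β} (hc : PT c) (hf : PT f) (hg : PT g) :
    PT (fun a => cond (c a) (f a) (g a)) := by
  obtain ⟨p, q, hp⟩ := hc
  obtain ⟨p1, q1, hp1⟩ := hf
  obtain ⟨p2, q2, hp2⟩ := hg
  refine ⟨.seq pDup (.seq p (.case .s .skip p2 (.seq (pop1 .s) (.seq (pop1 .s) p1)))),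
    12 * Polynomial.X + 5 + q + q1 + q2 + 5, fun a r => ?_⟩
  have h1 := hp a ((Enc.enc a).bits ++ r)
  dsimp only
  cases h : c a
  · rw [h] at h1
    refine EvLe.mono ((ev_dup (Enc.enc a) r).seq (h1.seq (EvLe.caseF (r := (Enc.enc a).bits ++ r) rfl
      (hp2 a r)))) ?_
    simp [sz]; omega
  · rw [h] at h1
    refine EvLe.mono ((ev_dup (Enc.enc a) r).seq (h1.seq (EvLe.caseT
      (r := false :: false :: ((Enc.enc a).bits ++ r)) rfl
      ((ev_pop1 _ _ _ _ _).seq ((ev_pop1 _ _ _ _ _).seq (hp1 a r)))))) ?_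
    simp [sz]; omega

/-- The core loop rule: iterate `f` while `c` holds. -/
theorem PT.while_loop {σ : Type*} [Enc σ] {f : σ → σ} {c : σ → Bool} {init : α → σ} {N : α → ℕ}
    (hf : PT f) (hc : PT c) (hi : PT init) (hN : PB N)
    (h1 : ∀ a i, i < N a → c (f^[i] (init a)) = true) (h2 : ∀ a, c (f^[N a] (init a)) = false)
    (hb : ∃ q : Polynomial ℕ, ∀ a i, i ≤ N a → sz (f^[i] (init a)) ≤ q.eval (sz a)) :
    PT (fun a => f^[N a] (init a)) := by
  obtain ⟨p, q, hp⟩ := hf
  obtain ⟨pc, qc, hpc⟩ := hc
  obtain ⟨pi, qi, hpi⟩ := hi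
  obtain ⟨qN, hqN⟩ := hN
  obtain ⟨qb, hqb⟩ := hb
  set body : P := .seq pDup (.seq pc (.case .s .skip .skip
    (.seq (pop1 .s) (.seq (pop1 .s) (.seq p (.push .c true)))))) with hbody
  have key : ∀ (a : α) (r : List Bool) (j i : ℕ), i + j = N a →
      EvLe (.loop .c .skip body) ⟨(Enc.enc (f^[i] (init a))).bits ++ r, [], [], [true]⟩
        (mk ((Enc.enc (f^[N a] (init a))).bits ++ r))
        ((j + 1) * (12 * qb.eval (sz a) + qc.eval (qb.eval (sz a)) + q.eval (qb.eval (sz a)) + 14)) := by
    intro a r j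
    induction j with
    | zero =>
      intro i hi
      have hi' : i = N a := by omega
      subst hi'
      have h3 := hpc (f^[N a] (init a)) ((Enc.enc (f^[N a] (init a))).bits ++ r)
      rw [h2] at h3
      refine EvLe.mono (EvLe.loopT (r := []) rfl ((ev_dup _ r).seq (h3.seq
        (EvLe.caseF (r := (Enc.enc (f^[N a] (init a))).bits ++ r) rfl (EvLe.skip _))))
        (EvLe.loopN rfl)) ?_
      have h4 := hqb a (N a) le_rfl
      have h5 := eval_mono qc h4
      simp only [sz] at *
      omega
    | succ j ih =>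
      intro i hi
      have h3 := hpc (f^[i] (init a)) ((Enc.enc (f^[i] (init a))).bits ++ r)
      rw [h1 a i (by omega)] at h3
      have h6 := ih (i + 1) (by omega)
      rw [Function.iterate_succ_apply'] at h6
      refine EvLe.mono (EvLe.loopT (r := []) rfl ((ev_dup _ r).seq (h3.seq
        (EvLe.caseT (r := false :: false :: ((Enc.enc (f^[i] (init a))).bits ++ r)) rfl
          ((ev_pop1 _ _ _ _ _).seq ((ev_pop1 _ _ _ _ _).seq ((hp _ r).seq (EvLe.push .c true _)))))))
        h6) ?_
      have h4 := hqb a i (by omega)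
      have h5 := eval_mono qc h4
      have h7 := eval_mono q h4
      simp only [sz] at *
      rw [add_mul (j + 1) 1]
      omega
  refine ⟨.seq pi (.seq (.push .c true) (.loop .c .skip body)),
    qi + 1 + (qN + 1) * (12 * qb + qc.comp qb + q.comp qb + 14), fun a r => ?_⟩
  refine EvLe.mono ((hpi a r).seq ((EvLe.push .c true _).seq (key a r (N a) 0 (by omega)))) ?_
  have := hqN a
  simp only [Polynomial.eval_add, Polynomial.eval_mul, Polynomial.eval_comp, Polynomial.eval_one,
    Polynomial.eval_ofNat]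
  have h8 := Nat.mul_le_mul_right (12 * qb.eval (sz a) + qc.eval (qb.eval (sz a)) +
    q.eval (qb.eval (sz a)) + 14) (Nat.add_le_add_right this 1)
  omega

end

/-! ## From `PT` to the machine model of the Prelude -/

def pIn : P := .seq (.push .s false) (.loop .a (.seq (.push .s false) (.push .s true))
  (.seq (.push .s false) (.seq (.push .s false) (.seq (.push .s true) (.push .s true)))))

theorem ev_pIn_loop (l : List Bool) : ∀ (m : List Bool),
    EvLe (.loop .a (.seq (.push .s false) (.push .s true))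
      (.seq (.push .s false) (.seq (.push .s false) (.seq (.push .s true) (.push .s true)))))
      ⟨(enc m).bits, l, [], []⟩ (mk (enc (l.reverse ++ m)).bits) (5 * l.length + 1) := by
  induction l with
  | nil => intro m; exact EvLe.loopN rfl
  | cons x l ih =>
    intro m
    have := ih (x :: m)
    rw [List.reverse_cons, List.append_assoc]
    cases x
    · exact EvLe.mono (EvLe.loopF (r := l) rfl ((EvLe.push _ _ _).seq (EvLe.push _ _ _)) this)
        (by simp; omega)
    · exact EvLe.mono (EvLe.loopT (r := l) rfl ((EvLe.push _ _ _).seq ((EvLe.push _ _ _).seq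
        ((EvLe.push _ _ _).seq (EvLe.push _ _ _)))) this) (by simp; omega)

def pOutLoop : P := .loop .s .skip (.case .s .skip (.push .a false)
  (.seq (pop1 .s) (.seq (pop1 .s) (.push .a true))))

theorem ev_pOutLoop (l : List Bool) : ∀ (a : List Bool),
    EvLe pOutLoop ⟨(enc l).bits, a, [], []⟩ ⟨[], l.reverse ++ a, [], []⟩ (7 * l.length + 3) := by
  induction l with
  | nil =>
    intro a
    exact EvLe.mono (EvLe.loopF (r := []) rfl (EvLe.skip _) (EvLe.loopN rfl)) (by simp)
  | cons x l ih =>
    intro a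
    have := ih (x :: a)
    rw [List.reverse_cons, List.append_assoc]
    cases x
    · exact EvLe.mono (EvLe.loopT (r := false :: (enc l).bits) rfl
        (EvLe.caseF (r := (enc l).bits) rfl (EvLe.push _ _ _)) this) (by simp; omega)
    · exact EvLe.mono (EvLe.loopT (r := true :: false :: false :: (enc l).bits) rfl
        (EvLe.caseT (r := false :: false :: (enc l).bits) rfl ((ev_pop1 _ _ _ _ _).seq
          ((ev_pop1 _ _ _ _ _).seq (EvLe.push _ _ _)))) this) (by simp; omega)

theorem sz_bits_le (l : List Bool) : sz l ≤ 4 * l.length + 1 := by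
  induction l with
  | nil => simp
  | cons b l ih => have := sz_bool b; simp; omega

theorem length_le_sz {α : Type*} [Enc α] (l : List α) : l.length ≤ sz l := by
  induction l with
  | nil => simp
  | cons b l ih => simp; omega

/-- General bridge: input alphabet `Γ₀` with a fixed-width binary code. -/
theorem PT.computable {α β Γ₀ : Type} [Fintype Γ₀] (ea : α → List Γ₀) (eb : β → List Bool)
    (f : α → β) (code : Γ₀ → List Bool) (w : ℕ) (hw : ∀ g, (code g).length = w)
    {g : List Bool → List Bool} (hg : PT g) (h : ∀ a, g ((ea a).flatMap code) = eb (f a)) :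
    Crest.Complexity.PolyTimeComputable ea eb f := by
  obtain ⟨s, hs⟩ := hg.pb_sz
  obtain ⟨p, q, hp⟩ := hg
  set X' : Polynomial ℕ := 4 * (Polynomial.C w * Polynomial.X) + 1 with hX
  refine computable_of_prog ea eb f code w hw (.seq pIn (.seq p (.seq pOutLoop aToS)))
    (2 * X' + 2 + q.comp X' + 9 * s.comp X' + 6) fun a => ?_
  set x := (ea a).flatMap code with hx
  have hlen : x.length = w * (ea a).length := by
    rw [hx, List.length_flatMap]; simp [hw, mul_comm]
  have h0 : sz x ≤ X'.eval (ea a).length := by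
    have := sz_bits_le x
    simp [hX]; rw [hlen] at this; omega
  have h1 := ev_pIn_loop x.reverse []
  have h2 := hp x []
  have h3 := ev_pOutLoop (g x) []
  have h4 := ev_aToS (g x).reverse [] [] []
  simp only [List.reverse_reverse, List.append_nil] at h1 h2 h3 h4
  have h5 := ((EvLe.push .s false ⟨[], x.reverse, [], []⟩).seq h1).seq (h2.seq (h3.seq h4))
  rw [← h a]
  refine EvLe.mono h5 ?_
  have h6 := eval_mono q h0
  have h7 := eval_mono s h0
  have h8 : sz (g x) ≤ _ := hs x
  have h9 := length_le_sz (g x)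
  have h10 : X'.eval (ea a).length = 4 * x.length + 1 := by simp [hX, hlen]
  simp only [Polynomial.eval_add, Polynomial.eval_mul, Polynomial.eval_comp,
    Polynomial.eval_ofNat, List.length_reverse]
  omega

theorem PT.polyTime {f : List Bool → List Bool} (h : PT f) : Crest.Complexity.PolyTime f :=
  PT.computable _ _ f (fun b => [b]) 1 (fun _ => rfl) h fun a => by
    simp [Computability.encodingList]

end Crest.Agent.PTime
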